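import Vale.Agent.P133.H832.TameDef

/-!
P133 (helper779): closed prime ideals.
-/

namespace Vale.Agent.P133.H779

open Vale.Agent.P133.H832

universe u

/-- closed prime ideals -/
def IsPrimeC {A : Type u} [NonUnitalCStarAlgebra A] (P : Submodule ℂ A) : Prop :=
  IsClosedIdeal P ∧ P ≠ ⊤ ∧ ∀ x y : A, (∀ w, x * w * y ∈ P) → x ∈ P ∨ y ∈ P

end Vale.Agent.P133.H779
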