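import Vale.Agent.P133.H779.Ind
import Vale.Agent.P133.H779.PrimeDef

/-!
P133 (helper779): countable closed covers of the primitive ideal space, by Baire's argument.
-/

open scoped ComplexOrder

namespace Vale.Agent.P133.H779

open Vale.Agent.P133 Vale.Agent.P133.Statement Vale.Agent.P133.H832 Vale.Agent.P133F
  Vale.Agent.P133.H681 Vale.Agent.P133.R2 Vale.Agent.P133.R2.H28 Vale.Agent.P133.H330
  Vale.Agent.P133.H512

universe u

section

variable {A : Type u} [NonUnitalCStarAlgebra A] [PartialOrder A] [StarOrderedRing A]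

omit [PartialOrder A] [StarOrderedRing A] in
theorem her_mem_ideal {P : Submodule ℂ A} (hP : IsClosedIdeal P) {b x : A} (hb : b ∈ P)
    (hx : x ∈ Her b) : x ∈ P := by
  have h1 : closure (Set.range fun w => b * w * b) ⊆ (P : Set A) := by
    refine closure_minimal ?_ hP.1
    rintro _ ⟨w, rfl⟩
    exact (hP.2 _ _ (hP.2 _ _ hb).2).2
  exact h1 hx

theorem cut_mem_ideal {P : Submodule ℂ A} (hP : IsClosedIdeal P) {x : A} (hx : 0 ≤ x)
    (hxP : x ∈ P) {δ : ℝ} (hδ : 0 < δ) : R2.H28.cut x δ ∈ P := by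
  have h1 := inId_cut_self hx hδ
  exact hP.inId hxP h1

omit [PartialOrder A] [StarOrderedRing A] in
theorem isClosedIdeal_sup {I J : Submodule ℂ A} (hI : IsClosedIdeal I) (hJ : IsClosedIdeal J) :
    IsClosedIdeal (I ⊔ J).topologicalClosure := by
  refine isClosedIdeal_closure fun b x hx => ?_
  obtain ⟨u, hu, v, hv, rfl⟩ := Submodule.mem_sup.1 hx
  rw [mul_add, add_mul]
  exact ⟨Submodule.add_mem_sup (hI.2 _ _ hu).1 (hJ.2 _ _ hv).1,
    Submodule.add_mem_sup (hI.2 _ _ hu).2 (hJ.2 _ _ hv).2⟩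

omit [PartialOrder A] [StarOrderedRing A] in
/-- products of elements of sums of ideals -/
theorem mul_mem_of_sup {P X Y : Submodule ℂ A} (hP : IsClosedIdeal P)
    (h : ∀ x ∈ X, ∀ y ∈ Y, x * y ∈ P) {u v : A} (hu : u ∈ (P ⊔ X).topologicalClosure)
    (hv : v ∈ (P ⊔ Y).topologicalClosure) : u * v ∈ P := by
  have h1 : u * v ∈ closure (P : Set A) := by
    refine map_mem_closure₂ (f := fun u v : A => u * v) continuous_mul
      (s := ((P ⊔ X : Submodule ℂ A) : Set A)) (t := ((P ⊔ Y : Submodule ℂ A) : Set A)) hu hv ?_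
    intro u hu v hv
    obtain ⟨p, hp, x, hx, rfl⟩ := Submodule.mem_sup.1 hu
    obtain ⟨q, hq, y, hy, rfl⟩ := Submodule.mem_sup.1 hv
    rw [add_mul, mul_add x]
    exact P.add_mem (hP.2 _ _ hp).2 (P.add_mem (hP.2 _ _ hq).1 (h x hx y hy))
  rwa [hP.1.closure_eq] at h1

/-- one step of the construction -/
theorem baire_step {J L : Submodule ℂ A} (hJ : IsClosedIdeal J) (hL : IsClosedIdeal L)
    (h : ∀ I : Submodule ℂ A, IsClosedIdeal I → I ≤ L → (∀ z ∈ I, z ∈ J → z = 0) →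
      ∀ z ∈ I, z = 0) {x : A} (x0 : 0 ≤ x) (hxL : x ∈ L) (hx1 : ‖x‖ = 1) :
    ∃ y : A, 0 ≤ y ∧ y ∈ L ∧ ‖y‖ = 1 ∧ y ∈ J ∧ y ∈ Her (R2.H28.cut x (1 / 2)) := by
  obtain ⟨b, hb⟩ : ∃ b : A, b = R2.H28.cut x (1 / 2) := ⟨_, rfl⟩
  have hb0 : 0 ≤ b := by rw [hb]; exact R2.H28.cut_nonneg _ _
  have hbs : star b = b := (IsSelfAdjoint.of_nonneg hb0).star_eq
  have hbne : b ≠ 0 := by
    intro h0
    have h1 := R2.H28.norm_cut_sub_le x0 (ε := 1 / 2) (by norm_num)
    rw [← hb, h0, zero_sub, norm_neg, hx1] at h1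
    norm_num at h1
  have hbL : b ∈ L := by rw [hb]; exact cut_mem_ideal hL x0 hxL (by norm_num)
  obtain ⟨I, hI, hI'⟩ := isClosedIdeal_inId b
  have hIL : I ≤ L := fun z hz => hL.inId hbL ((hI' z).1 hz)
  obtain ⟨z, hzI, hzJ, hzne⟩ : ∃ z ∈ I, z ∈ J ∧ z ≠ 0 := by
    by_contra hno
    push Not at hno
    exact hbne (h I hI hIL hno b ((hI' b).2 (InId.refl b)))
  obtain ⟨v, hv⟩ : ∃ v, b * v * z ≠ 0 := by
    by_contra hno
    push Not at hno
    refine hzne ?_
    have h1 : ‖star z * z‖ ≤ 0 := by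
      refine le_of_forall_pos_le_add fun ε hε => ?_
      obtain ⟨m, r, s, hrs⟩ := InId.star_right hbs ((hI' z).1 hzI) (ε / (‖z‖ + 1)) (by positivity)
      have h2 : (∑ k, r k * b * s k) * z = 0 := by
        rw [Finset.sum_mul]
        refine Finset.sum_eq_zero fun k _ => ?_
        calc r k * b * s k * z = r k * (b * s k * z) := by simp only [mul_assoc]
          _ = 0 := by rw [hno, mul_zero]
      have h3 : star z * z = -((∑ k, r k * b * s k - star z) * z) := by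
        rw [sub_mul, h2, zero_sub, neg_neg]
      rw [h3, norm_neg, zero_add]
      calc _ ≤ ‖∑ k, r k * b * s k - star z‖ * ‖z‖ := norm_mul_le _ _
        _ ≤ ε / (‖z‖ + 1) * ‖z‖ := by gcongr
        _ = ‖z‖ / (‖z‖ + 1) * ε := by ring
        _ ≤ 1 * ε := by
            gcongr
            rw [div_le_one (by positivity)]
            linarith
        _ = ε := one_mul ε
    exact (CStarRing.star_mul_self_eq_zero_iff z).1 (norm_le_zero_iff.1 h1)
  obtain ⟨w, hw⟩ : ∃ w : A, w = b * v * z := ⟨_, rfl⟩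
  rw [← hw] at hv
  have hwJ : w ∈ J := by rw [hw]; exact (hJ.2 _ _ hzJ).1
  have hwL : w ∈ L := by rw [hw]; exact (hL.2 _ _ (hIL hzI)).1
  have hwn : 0 < ‖w * star w‖ := by
    rw [CStarRing.norm_self_mul_star]
    have := norm_pos_iff.2 hv
    positivity
  refine ⟨(‖w * star w‖⁻¹ : ℝ) • (w * star w), smul_nonneg (by positivity)
    (mul_star_self_nonneg w), ?_, ?_, ?_, ?_⟩
  · rw [← Complex.coe_smul]
    exact L.smul_mem _ (hL.2 _ _ hwL).2
  · rw [norm_smul, norm_inv, norm_norm, inv_mul_cancel₀ hwn.ne']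
  · rw [← Complex.coe_smul]
    exact J.smul_mem _ (hJ.2 _ _ hwJ).2
  · rw [← hb, ← Complex.coe_smul]
    refine (H474.her b).smul_mem _ ?_
    have h1 : w * star w = b * (v * z * (star z * star v)) * b := by
      rw [hw]
      simp only [star_mul, hbs, mul_assoc]
    rw [h1]
    exact H474.her_self b _

/-- **Baire's theorem for the primitive ideal space.** If every closed prime ideal contains one
of the countably many closed ideals `J k`, every nonzero closed ideal `L` contains a nonzero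
closed ideal which meets one of the `J k` only in zero. -/
theorem baire {J : ℕ → Submodule ℂ A} (hJ : ∀ k, IsClosedIdeal (J k))
    (hP : ∀ P : Submodule ℂ A, IsPrimeC P → ∃ k, J k ≤ P) {L : Submodule ℂ A}
    (hL : IsClosedIdeal L) {a : A} (haL : a ∈ L) (hane : a ≠ 0) :
    ∃ (k : ℕ) (I : Submodule ℂ A), IsClosedIdeal I ∧ I ≤ L ∧ (∀ z ∈ I, z ∈ J k → z = 0) ∧
      ∃ z ∈ I, z ≠ 0 := by
  by_contra hno
  have h : ∀ (k : ℕ) (I : Submodule ℂ A), IsClosedIdeal I → I ≤ L →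
      (∀ z ∈ I, z ∈ J k → z = 0) → ∀ z ∈ I, z = 0 := by
    intro k I hI hIL hz z hzI
    by_contra hzne
    exact hno ⟨k, I, hI, hIL, hz, z, hzI, hzne⟩
  -- the first element
  have hn : 0 < ‖star a * a‖ := by
    rw [CStarRing.norm_star_mul_self]
    have := norm_pos_iff.2 hane
    positivity
  let T := {x : A // 0 ≤ x ∧ x ∈ L ∧ ‖x‖ = 1}
  have x₀ : T := ⟨(‖star a * a‖⁻¹ : ℝ) • (star a * a), smul_nonneg (by positivity)
    (star_mul_self_nonneg a), by
      rw [← Complex.coe_smul]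
      exact L.smul_mem _ (hL.2 _ _ haL).1, by
      rw [norm_smul, norm_inv, norm_norm, inv_mul_cancel₀ hn.ne']⟩
  have hstep : ∀ (k : ℕ) (x : T), ∃ y : T, y.1 ∈ J k ∧ y.1 ∈ Her (R2.H28.cut x.1 (1 / 2)) := by
    intro k x
    obtain ⟨y, h1, h2, h3, h4, h5⟩ := baire_step (hJ k) hL (h k) x.2.1 x.2.2.1 x.2.2.2
    exact ⟨⟨y, h1, h2, h3⟩, h4, h5⟩
  choose F hF1 hF2 using hstep
  let x : ℕ → T := fun k => Nat.rec x₀ (fun k t => F k t) k
  have hx1 : ∀ k, (x (k + 1)).1 ∈ J k := fun k => hF1 k (x k)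
  have hx2 : ∀ k, (x (k + 1)).1 ∈ Her (R2.H28.cut (x k).1 (1 / 2)) := fun k => hF2 k (x k)
  have hhalf : (0 : ℝ) < 1 / 2 := by norm_num
  -- a maximal ideal
  obtain ⟨P, -, hPm⟩ := zorn_le_nonempty₀
    {P : Submodule ℂ A | IsClosedIdeal P ∧ ∀ k, R2.H28.cut (x k).1 (1 / 2) ∉ P} (by
      intro c hc hch y hy
      have h1 : ∀ x, x ∈ sSup c ↔ ∃ P ∈ c, x ∈ P := fun x =>
        Submodule.mem_sSup_of_directed ⟨y, hy⟩ hch.directedOn
      have hcl : IsClosedIdeal (sSup c).topologicalClosure := isClosedIdeal_closure fun b x hx => by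
        obtain ⟨P, hP, hx⟩ := (h1 x).1 hx
        exact ⟨(h1 _).2 ⟨P, hP, ((hc hP).1.2 b x hx).1⟩,
          (h1 _).2 ⟨P, hP, ((hc hP).1.2 b x hx).2⟩⟩
      refine ⟨(sSup c).topologicalClosure, ⟨hcl, fun k hk => ?_⟩,
        fun z hz => (le_sSup hz).trans (Submodule.le_topologicalClosure _)⟩
      have h2 := her_mem_ideal hcl hk (hx2 k)
      obtain ⟨w, hw, h3⟩ := Metric.mem_closure_iff.1
        (show (x (k + 1)).1 ∈ closure ((sSup c : Submodule ℂ A) : Set A) from h2) (1 / 2) hhalf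
      obtain ⟨P, hPc, hwP⟩ := (h1 w).1 hw
      rw [dist_eq_norm] at h3
      exact (hc hPc).2 (k + 1) ((hc hPc).1.cut_mem (x (k + 1)).2.1 hwP h3)) ⊥ ⟨isClosedIdeal_bot, fun k hk => by
        have h1 := R2.H28.norm_cut_sub_le (x k).2.1 hhalf
        rw [(Submodule.mem_bot ℂ).1 hk, zero_sub, norm_neg, (x k).2.2.2] at h1
        norm_num at h1⟩
  obtain ⟨hPc, hPx⟩ := hPm.prop
  -- it is prime
  have hpr : IsPrimeC P := by
    refine ⟨hPc, fun h1 => hPx 0 (by rw [h1]; exact Submodule.mem_top), fun u v huv => ?_⟩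
    by_contra hcon
    push Not at hcon
    have key : ∀ t : A, t ∉ P → ∃ (X : Submodule ℂ A), (∀ z, z ∈ X ↔ InId t z) ∧
        ∃ k, R2.H28.cut (x k).1 (1 / 2) ∈ (P ⊔ X).topologicalClosure := by
      intro t ht
      obtain ⟨X, hX, hX'⟩ := isClosedIdeal_inId t
      refine ⟨X, hX', ?_⟩
      by_contra hno
      push Not at hno
      have h2 := hPm.le_of_ge ⟨isClosedIdeal_sup hPc hX, hno⟩
        (le_sup_left.trans (Submodule.le_topologicalClosure _))
      exact ht (h2 (Submodule.le_topologicalClosure _ (Submodule.mem_sup_right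
        ((hX' t).2 (InId.refl t)))))
    obtain ⟨X, hX', k, hk⟩ := key u hcon.1
    obtain ⟨Y, hY', l, hl⟩ := key v hcon.2
    have hXc : IsClosedIdeal X := by
      obtain ⟨X₁, h1, h2⟩ := isClosedIdeal_inId u
      have : X = X₁ := by ext z; rw [hX', h2]
      rw [this]; exact h1
    have hYc : IsClosedIdeal Y := by
      obtain ⟨X₁, h1, h2⟩ := isClosedIdeal_inId v
      have : Y = X₁ := by ext z; rw [hY', h2]
      rw [this]; exact h1
    have hmono : ∀ (Z : Submodule ℂ A), IsClosedIdeal Z → ∀ k, R2.H28.cut (x k).1 (1 / 2) ∈ Z →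
        ∀ m, k < m → (x m).1 ∈ Z := by
      intro Z hZ k hk m hm
      induction m with
      | zero => exact absurd hm (Nat.not_lt_zero k)
      | succ m ih =>
        rcases (Nat.lt_succ_iff.1 hm).eq_or_lt with rfl | hlt
        · exact her_mem_ideal hZ hk (hx2 k)
        · exact her_mem_ideal hZ (cut_mem_ideal hZ (x m).2.1 (ih hlt) hhalf) (hx2 m)
    set m := max k l + 1 with hm
    have h1 := hmono _ (isClosedIdeal_sup hPc hXc) k hk m (by omega)
    have h2 := hmono _ (isClosedIdeal_sup hPc hYc) l hl m (by omega)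
    have hXY : ∀ p ∈ X, ∀ q ∈ Y, p * q ∈ P := by
      intro p hp q hq
      refine hPc.lim fun ε hε => ?_
      have h3 : ∀ q, InId v q → ∀ w, u * w * q ∈ P := by
        intro q hq w
        refine hPc.lim fun ε hε => ?_
        obtain ⟨M, r, s, hrs⟩ := hq (ε / (‖u * w‖ + 1)) (by positivity)
        refine ⟨u * w * ∑ j, r j * v * s j, ?_, ?_⟩
        · rw [Finset.mul_sum]
          refine P.sum_mem fun j _ => ?_
          have e : u * w * (r j * v * s j) = (u * (w * r j) * v) * s j := by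
            simp only [mul_assoc]
          rw [e]
          exact (hPc.2 _ _ (huv _)).2
        · rw [← mul_sub]
          calc _ ≤ ‖u * w‖ * ‖∑ j, r j * v * s j - q‖ := norm_mul_le _ _
            _ ≤ ‖u * w‖ * (ε / (‖u * w‖ + 1)) := by gcongr
            _ = ‖u * w‖ / (‖u * w‖ + 1) * ε := by ring
            _ < ε := by
                have h4 : ‖u * w‖ / (‖u * w‖ + 1) < 1 := by
                  rw [div_lt_one (by positivity)]; linarith
                nlinarith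
      obtain ⟨M, r, s, hrs⟩ := (hX' p).1 hp (ε / (‖q‖ + 1)) (by positivity)
      refine ⟨(∑ j, r j * u * s j) * q, ?_, ?_⟩
      · rw [Finset.sum_mul]
        refine P.sum_mem fun j _ => ?_
        have e : r j * u * s j * q = r j * (u * s j * q) := by simp only [mul_assoc]
        rw [e]
        exact (hPc.2 _ _ (h3 q ((hY' q).1 hq) (s j))).1
      · rw [← sub_mul]
        calc _ ≤ ‖∑ j, r j * u * s j - p‖ * ‖q‖ := norm_mul_le _ _
          _ ≤ ε / (‖q‖ + 1) * ‖q‖ := by gcongr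
          _ = ‖q‖ / (‖q‖ + 1) * ε := by ring
          _ < ε := by
              have h4 : ‖q‖ / (‖q‖ + 1) < 1 := by
                rw [div_lt_one (by positivity)]; linarith
              nlinarith
    have h3 : star (x m).1 * (x m).1 ∈ P := by
      rw [(IsSelfAdjoint.of_nonneg (x m).2.1).star_eq]
      exact mul_mem_of_sup hPc hXY h1 h2
    exact hPx m (cut_mem_ideal hPc (x m).2.1 (hPc.of_star_mul_self h3) hhalf)
  obtain ⟨k, hk⟩ := hP P hpr
  exact hPx (k + 1) (cut_mem_ideal hPc (x (k + 1)).2.1 (hk (hx1 k)) hhalf)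

theorem isClosedIdeal_comap {D : Type u} [NonUnitalCStarAlgebra D] [PartialOrder D]
    [StarOrderedRing D] (φ : A →⋆ₙₐ[ℂ] D)
    {P : Submodule ℂ D} (hP : IsClosedIdeal P) :
    IsClosedIdeal (P.comap (φ : A →ₗ[ℂ] D)) := by
  refine ⟨?_, fun b x hx => ⟨?_, ?_⟩⟩
  · exact hP.1.preimage (map_continuous φ)
  · show φ (b * x) ∈ P
    rw [map_mul]
    exact (hP.2 _ _ hx).1
  · show φ (x * b) ∈ P
    rw [map_mul]
    exact (hP.2 _ _ hx).2

omit [PartialOrder A] [StarOrderedRing A] in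
theorem mem_map_iff {D : Type u} [NonUnitalCStarAlgebra D] (φ : A →⋆ₙₐ[ℂ] D)
    {K : Submodule ℂ A} (hK : ∀ x, φ x = 0 → x ∈ K) (x : A) :
    φ x ∈ K.map (φ : A →ₗ[ℂ] D) ↔ x ∈ K := by
  refine ⟨fun h => ?_, fun h => ⟨x, h, rfl⟩⟩
  obtain ⟨y, hy, hxy⟩ := h
  have hxy' : φ y = φ x := hxy
  have h1 : x - y ∈ K := hK _ (by rw [map_sub, hxy', sub_self])
  have h2 := K.add_mem h1 hy
  rwa [sub_add_cancel] at h2

theorem isClosedIdeal_map {D : Type u} [NonUnitalCStarAlgebra D] [PartialOrder D]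
    [StarOrderedRing D] (φ : A →⋆ₙₐ[ℂ] D)
    (hφ : Function.Surjective φ) {K : Submodule ℂ A} (hK : IsClosedIdeal K)
    (hker : ∀ x, φ x = 0 → x ∈ K) : IsClosedIdeal (K.map (φ : A →ₗ[ℂ] D)) := by
  refine ⟨?_, fun b x hx => ?_⟩
  · let φL : A →L[ℂ] D := ⟨(φ : A →ₗ[ℂ] D), map_continuous φ⟩
    have ho : IsOpenMap φL := φL.isOpenMap hφ
    rw [← isOpen_compl_iff]
    have e : ((K.map (φ : A →ₗ[ℂ] D) : Submodule ℂ D) : Set D)ᶜ = φL '' (K : Set A)ᶜ := by
      ext d
      obtain ⟨x, rfl⟩ := hφ d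
      constructor
      · intro h
        exact ⟨x, fun hx => h ((mem_map_iff φ hker x).2 hx), rfl⟩
      · rintro ⟨y, hy, hxy⟩ h
        have hxy' : φ y = φ x := hxy
        rw [SetLike.mem_coe, ← hxy', mem_map_iff φ hker] at h
        exact hy h
    rw [e]
    exact ho _ hK.1.isOpen_compl
  · obtain ⟨b, rfl⟩ := hφ b
    obtain ⟨x, rfl⟩ := hφ x
    rw [mem_map_iff φ hker] at hx
    rw [← map_mul, ← map_mul, mem_map_iff φ hker, mem_map_iff φ hker]
    exact hK.2 _ _ hx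

theorem isPrimeC_comap {D : Type u} [NonUnitalCStarAlgebra D] [PartialOrder D]
    [StarOrderedRing D] (φ : A →⋆ₙₐ[ℂ] D)
    (hφ : Function.Surjective φ) {P : Submodule ℂ D} (hP : IsPrimeC P) :
    IsPrimeC (P.comap (φ : A →ₗ[ℂ] D)) := by
  refine ⟨isClosedIdeal_comap φ hP.1, fun h => hP.2.1 ?_, fun x y hxy => ?_⟩
  · rw [eq_top_iff]
    intro d _
    obtain ⟨x, rfl⟩ := hφ d
    have h1 : x ∈ P.comap (φ : A →ₗ[ℂ] D) := by rw [h]; exact Submodule.mem_top
    exact h1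
  · refine hP.2.2 (φ x) (φ y) fun w => ?_
    obtain ⟨w, rfl⟩ := hφ w
    rw [← map_mul, ← map_mul]
    exact hxy w

/-- **Countable closed covers.** Let `A` be weakly purely infinite and let `J k` be countably many
closed ideals with purely infinite quotients, such that every closed prime ideal of `A` contains
one of them. Then `A` is purely infinite. -/
theorem eltPI_of_cover {n : ℕ} (hn : WPI A n) {J : ℕ → Submodule ℂ A}
    (hJ : ∀ k, IsClosedIdeal (J k))
    (hP : ∀ P : Submodule ℂ A, IsPrimeC P → ∃ k, J k ≤ P)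
    (hB : ∀ (k : ℕ) (B : Type u) [NonUnitalCStarAlgebra B] [PartialOrder B] [StarOrderedRing B]
      (φ : A →⋆ₙₐ[ℂ] B), Function.Surjective φ → (∀ x, φ x = 0 ↔ x ∈ J k) → EltPI B) :
    EltPI A := by
  refine eltPI_of_ind hn fun K K' hK hK' hlt => ?_
  obtain ⟨D, i1, i2, i3, φ, hφ, hk⟩ := hK.quot
  have hker : ∀ x, φ x = 0 → x ∈ K' := fun x hx => hlt.le ((hk x).1 hx)
  obtain ⟨a, haK', haK⟩ := Set.exists_of_ssubset (show (K : Set A) ⊂ (K' : Set A) from hlt)
  let JD : ℕ → Submodule ℂ D := fun k => (((J k).map (φ : A →ₗ[ℂ] D)).topologicalClosure)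
  have hJD : ∀ k, IsClosedIdeal (JD k) := fun k => isClosedIdeal_closure fun b x hx => by
    obtain ⟨b, rfl⟩ := hφ b
    obtain ⟨x, hx, rfl⟩ := hx
    refine ⟨⟨b * x, ((hJ k).2 b x hx).1, ?_⟩, ⟨x * b, ((hJ k).2 b x hx).2, ?_⟩⟩
    · exact map_mul φ b x
    · exact map_mul φ x b
  obtain ⟨k, ID, hID, hIDL, hIDJ, z, hz, hz0⟩ := baire hJD (fun P hPp => by
    obtain ⟨k, hk⟩ := hP _ (isPrimeC_comap φ hφ hPp)
    refine ⟨k, Submodule.topologicalClosure_minimal _ ?_ hPp.1.1⟩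
    rintro _ ⟨x, hx, rfl⟩
    exact hk hx) (isClosedIdeal_map φ hφ hK' hker) (a := φ a) ⟨a, haK', rfl⟩
    (fun h => haK ((hk a).1 h))
  have hI := isClosedIdeal_comap φ hID
  refine ⟨ID.comap (φ : A →ₗ[ℂ] D), hI, ?_, ?_, ?_⟩
  · refine lt_of_le_of_ne (fun x hx => ?_) fun he => ?_
    · show φ x ∈ ID
      rw [(hk x).2 hx]
      exact ID.zero_mem
    · obtain ⟨x, rfl⟩ := hφ z
      refine hz0 ((hk x).2 ?_)
      rw [he]
      exact hz
  · intro x hx
    exact (mem_map_iff φ hker x).1 (hIDL hx)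
  · intro B j1 j2 j3 χ hχ hχk
    obtain ⟨C, k1, k2, k3, ρ, hρ, hρk⟩ := (hJ k).quot
    refine eltPI_of_le hρ (hB k C ρ hρ hρk) hχ (I := J k) (fun x hx => (hρk x).1 hx)
      fun x hx => (hχk x).2 ?_
    refine Submodule.le_topologicalClosure _ (Submodule.mem_sup_right ?_)
    intro y hy
    refine (hk _).1 (hIDJ _ ?_ ?_)
    · have h1 : φ y ∈ ID := hy
      rw [map_mul]
      exact (hID.2 _ _ h1).1
    · exact Submodule.le_topologicalClosure _ ⟨x * y, ((hJ k).2 y x hx).2, rfl⟩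

end

end Vale.Agent.P133.H779
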