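import Vale.Agent.P133.H779.Absorb
import Vale.Agent.P133.H832.ExtN

/-!
P133 (helper779): a weakly purely infinite C*-algebra whose proper quotients are purely infinite
is purely infinite.
-/

open scoped ComplexOrder

namespace Vale.Agent.P133.H779

open Vale.Agent.P133 Vale.Agent.P133.Statement Vale.Agent.P133.H832 Vale.Agent.P133F
  Vale.Agent.P133.H681 Vale.Agent.P133.R2 Vale.Agent.P133.R2.H28

universe u

section

variable {A : Type u} [NonUnitalCStarAlgebra A] [PartialOrder A] [StarOrderedRing A]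

/-- if the quotient by `J` is purely infinite, every positive element is properly infinite
modulo `J` -/
theorem rows_of_eltPI {B : Type u} [NonUnitalCStarAlgebra B] [PartialOrder B] [StarOrderedRing B]
    (φ : A →⋆ₙₐ[ℂ] B) (hφ : Function.Surjective φ) (hB : EltPI B) {J : Submodule ℂ A}
    (hk : ∀ x, φ x = 0 → x ∈ J) {h : A} (h0 : 0 ≤ h) (n : ℕ) {ε : ℝ} (hε : 0 < ε) :
    ∃ (s : Fin n → A) (z : Fin n → Fin n → A), (∀ i j, z i j ∈ J) ∧
      ∀ i j, ‖star (s i) * h * s j - (if i = j then h else 0) - z i j‖ < ε := by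
  have hD := diag_of_eltPI B hB
  obtain ⟨k, hk1⟩ : ∃ k : A, k = CFC.sqrt h := ⟨_, rfl⟩
  have hks : star k = k := by
    rw [hk1]; exact (IsSelfAdjoint.of_nonneg (CFC.sqrt_nonneg h)).star_eq
  have hkk : k * k = h := by rw [hk1]; exact CFC.sqrt_mul_sqrt_self h h0
  obtain ⟨d, -, hd⟩ := hD n (fun _ => φ k) (ε / 2) (half_pos hε)
  choose s hs using fun j => hφ (d j)
  have key : ∀ i j, ∃ y : A, φ y = φ (star (s i) * h * s j - (if i = j then h else 0)) ∧
      ‖y‖ ≤ ε / 2 := by
    intro i j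
    refine exists_lift φ _ (half_pos hε) ?_
    have h1 := (hd i j).le
    have h2 : φ (star (s i) * h * s j - (if i = j then h else 0)) =
        star (φ k * d i) * (φ k * d j) - (if i = j then star (φ k) * φ k else 0) := by
      rw [map_sub, map_mul, map_mul, map_star, hs, hs, ← hkk, map_mul, star_mul, ← map_star, hks]
      congr 1
      · simp only [mul_assoc]
      · split_ifs
        · rw [map_mul]
        · rw [map_zero]
    rw [h2]
    exact h1
  choose y hy1 hy2 using key
  refine ⟨s, fun i j => star (s i) * h * s j - (if i = j then h else 0) - y i j, fun i j =>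
    hk _ (by rw [map_sub, hy1, sub_self]), fun i j => ?_⟩
  rw [sub_sub_cancel]
  exact (hy2 i j).trans_lt (half_lt_self hε)

/-- If there are orthogonal `h`, `y` in the hereditary subalgebra of `a` with `h` full and the
quotient by the ideal `J` of elements below `y` is purely infinite, then `a` is properly
infinite. -/
theorem infB_of_quot {n : ℕ} (hW : WPI A n) {a h y : A} (ha : 0 ≤ a) (h0 : 0 ≤ h) (y0 : 0 ≤ y)
    (hhy : h * y = 0) (hha : h ∈ Her a) (hya : y ∈ Her a) (hI : InId h a)
    {J : Submodule ℂ A} (hJ : IsClosedIdeal J) (hJy : ∀ x ∈ J, InfB y (star x * x))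
    (hB : ∀ (B : Type u) [NonUnitalCStarAlgebra B] [PartialOrder B] [StarOrderedRing B]
      (φ : A →⋆ₙₐ[ℂ] B), Function.Surjective φ → (∀ x, φ x = 0 ↔ x ∈ J) → EltPI B) :
    InfB a a := by
  obtain ⟨B, i1, i2, i3, φ, hφ, hk⟩ := hJ.quot
  exact absorb hW ha h0 y0 hhy hha hya hI hJ hJy fun ε hε =>
    rows_of_eltPI φ hφ (hB B φ hφ hk) (fun x hx => (hk x).1 hx) h0 n hε

/-- the multiples of the elements of `⟨c⟩` are below `y` if those of `c` are -/
theorem infB_idSub {y c : A} (hc : InfB y c) {J : Submodule ℂ A}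
    (hJ : ∀ x, x ∈ J ↔ InId c x) : ∀ x ∈ J, InfB y (star x * x) := fun x hx =>
  hc.sub (H832.subId_of_inId' hc.1 (star_mul_self_nonneg x) (InId.mulL ((hJ x).1 hx) (star x)))

theorem eltPI_of_quotients (hW : WeaklyPurelyInfinite A)
    (H : ∀ (B : Type u) [NonUnitalCStarAlgebra B] [PartialOrder B] [StarOrderedRing B]
      (φ : A →⋆ₙₐ[ℂ] B), Function.Surjective φ → ¬ Function.Injective φ → PurelyInfinite B)
    (a : A) (ha : 0 ≤ a) : InfB a a := by
  obtain ⟨n, hn⟩ := wpi_elementwise hW
  by_cases hne : a = 0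
  · refine ⟨ha, fun m ε hε => ⟨fun _ => 0, fun i j => ?_⟩⟩
    rw [hne]
    simpa using hε
  have hbot : ∀ x : A, x ≠ 0 → x ∉ (⊥ : Submodule ℂ A) := fun x hx h =>
    hx ((Submodule.mem_bot ℂ).1 h)
  obtain ⟨c, hc0, hc, hac⟩ := exists_below hW ha isClosedIdeal_bot (hbot a hne)
  have hcne : c ≠ 0 := fun h => hc (by rw [h]; exact Submodule.zero_mem _)
  obtain ⟨h, y, h0, y0, hhy, hha, hya, hI, hyne, -⟩ :=
    full_and_small ha hcne (infB_of_allBelow hc0 hac)
  obtain ⟨e, he0, he, hye⟩ := exists_below hW y0 isClosedIdeal_bot (hbot y hyne)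
  have hene : e ≠ 0 := fun h => he (by rw [h]; exact Submodule.zero_mem _)
  obtain ⟨J, hJ, hJ'⟩ := isClosedIdeal_inId e
  refine infB_of_quot hn ha h0 y0 hhy hha hya hI hJ
    (infB_idSub (infB_of_allBelow he0 hye) hJ') fun B _ _ _ φ hφ hk => ?_
  refine eltPI_of B (H B φ hφ fun hinj => hene (hinj ?_))
  rw [map_zero, hk, hJ']
  exact InId.refl e

/-- **Theorem A.** A weakly purely infinite C*-algebra all of whose proper quotients are purely
infinite is purely infinite. -/
theorem pi_of_quotients (hW : WeaklyPurelyInfinite A)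
    (H : ∀ (B : Type u) [NonUnitalCStarAlgebra B] [PartialOrder B] [StarOrderedRing B]
      (φ : A →⋆ₙₐ[ℂ] B), Function.Surjective φ → ¬ Function.Injective φ → PurelyInfinite B) :
    PurelyInfinite A := by
  refine pi_of_eltPI fun a a0 ε hε => ?_
  obtain ⟨r, hr⟩ := (eltPI_of_quotients hW H a a0).2 2 ε hε
  refine ⟨r 0, r 1, ?_, ?_, ?_⟩
  · have := hr 0 0
    rwa [if_pos rfl] at this
  · have := hr 1 1
    rwa [if_pos rfl] at this
  · have := hr 0 1
    rwa [if_neg (by decide), sub_zero] at this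

end

end Vale.Agent.P133.H779
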