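import Vale.Agent.P133.H779.Rel
import Vale.Agent.P133.H512.Zorn

/-!
P133 (helper779): question (b) for C*-algebras whose primitive ideal space has a small inductive
dimension.
-/

open scoped ComplexOrder

namespace Vale.Agent.P133.H779

open Vale.Agent.P133 Vale.Agent.P133.Statement Vale.Agent.P133.H832 Vale.Agent.P133F
  Vale.Agent.P133.H681 Vale.Agent.P133.R2 Vale.Agent.P133.R2.H28 Vale.Agent.P133.H330
  Vale.Agent.P133.H512

universe u

/-- the ideal quotient `(K : I) = {x | x I ⊆ K}` -/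
def colon {A : Type u} [NonUnitalCStarAlgebra A] (K I : Submodule ℂ A) : Submodule ℂ A where
  carrier := {x | ∀ y ∈ I, x * y ∈ K}
  add_mem' := by
    intro x x' hx hx' y hy
    rw [add_mul]
    exact K.add_mem (hx y hy) (hx' y hy)
  zero_mem' := by
    intro y _
    rw [zero_mul]
    exact K.zero_mem
  smul_mem' := by
    intro c x hx y hy
    rw [smul_mul_assoc]
    exact K.smul_mem c (hx y hy)

section

variable {A : Type u} [NonUnitalCStarAlgebra A]

theorem mem_colon {K I : Submodule ℂ A} {x : A} : x ∈ colon K I ↔ ∀ y ∈ I, x * y ∈ K := Iff.rfl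

theorem isClosedIdeal_colon {K I : Submodule ℂ A} (hK : IsClosedIdeal K) (hI : IsClosedIdeal I) :
    IsClosedIdeal (colon K I) := by
  refine ⟨?_, fun a x hx => ⟨fun y hy => ?_, fun y hy => ?_⟩⟩
  · have e : (colon K I : Set A) = ⋂ y ∈ (I : Set A), {x | x * y ∈ (K : Set A)} := by
      ext x
      simp only [Set.mem_iInter, Set.mem_ofPred_eq, SetLike.mem_coe, mem_colon]
    rw [e]
    refine isClosed_biInter fun y _ => hK.1.preimage ?_
    fun_prop
  · rw [mul_assoc]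
    exact (hK.2 a _ (hx y hy)).1
  · rw [mul_assoc]
    exact hx _ (hI.2 a y hy).1

theorem le_colon {K I : Submodule ℂ A} (hK : IsClosedIdeal K) : K ≤ colon K I :=
  fun _ hx y _ => (hK.2 y _ hx).2

variable [PartialOrder A] [StarOrderedRing A]

theorem inf_colon {K I : Submodule ℂ A} (hK : IsClosedIdeal K) (hI : IsClosedIdeal I) :
    ∀ z ∈ I, z ∈ colon K I → z ∈ K := by
  intro z hz hzc
  have h1 : z * star z ∈ K := hzc _ (hI.star_mem hz)
  have h2 : star z ∈ K := hK.of_star_mul_self (by rwa [star_star])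
  have h3 := hK.star_mem h2
  rwa [star_star] at h3

theorem good_rows {n : ℕ} (hn : WPI A n) {a : A} (ha : 0 ≤ a) {κ₀ : ℝ} {P : Submodule ℂ A}
    (hP : IsClosedIdeal P) (h : Good n a κ₀ P) :
    ∃ κ', 0 < κ' ∧ κ' < κ₀ ∧ ∀ κ, κ' ≤ κ → ∀ (m : ℕ) (ε : ℝ), 0 < ε →
      RowsMod P a (R2.H28.cut a κ) m ε := by
  obtain ⟨B, i1, i2, i3, φ, hφ, hk⟩ := hP.quot
  obtain ⟨κ', h1, h2, h3⟩ := infB_of_good hn ha hφ (fun x hx => (hk x).2 hx) h
  refine ⟨κ', h1, h2, fun κ hκ m ε hε => ?_⟩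
  refine rowsMod_of_infB φ hφ (fun x hx => (hk x).1 hx) ?_ m hε
  rw [cut_map φ ha h1.le] at h3
  rw [cut_map φ ha (h1.le.trans hκ)]
  exact infB_cut_mono (map_nonneg_aux φ ha) h1 hκ h3

/-- if `B` is a quotient of the purely infinite quotient of `A` by `I` -/
theorem eltPI_of_le {B C : Type u} [NonUnitalCStarAlgebra B] [PartialOrder B] [StarOrderedRing B]
    [NonUnitalCStarAlgebra C] [PartialOrder C] [StarOrderedRing C]
    {ρ : A →⋆ₙₐ[ℂ] C} (hρ : Function.Surjective ρ) (hC : EltPI C)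
    {χ : A →⋆ₙₐ[ℂ] B} (hχ : Function.Surjective χ) {I : Submodule ℂ A}
    (h1 : ∀ x, ρ x = 0 → x ∈ I) (h2 : ∀ x ∈ I, χ x = 0) : EltPI B := by
  refine eltPI_of_infB fun b hb => ?_
  obtain ⟨w, rfl⟩ := CStarAlgebra.nonneg_iff_eq_star_mul_self.1 hb
  obtain ⟨v, rfl⟩ := hχ w
  refine ⟨hb, fun m ε hε => ?_⟩
  obtain ⟨s, z, hz, hs⟩ := rows_of_eltPI ρ hρ hC h1 (star_mul_self_nonneg v) m (half_pos hε)
  refine ⟨fun i => χ (s i), fun i j => ?_⟩
  have e1 : star (χ v) * χ v = χ (star v * v) := by rw [map_mul, map_star]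
  rw [e1]
  exact (map_rows χ (h2 _ (hz i j)) (hs i j).le).trans_lt (half_lt_self hε)

/-- **The inductive theorem.** Let `A` be weakly purely infinite. Suppose that for all closed
ideals `K < K'` of `A` there is a closed ideal `I` with `K < I ≤ K'` such that the quotient of
`A` by `I + (K : I)` (this belongs to the boundary of the open set of `I` in the closed set of
`K`) is purely infinite. Then `A` is purely infinite. -/
theorem eltPI_of_ind {n : ℕ} (hn : WPI A n)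
    (H : ∀ K K' : Submodule ℂ A, IsClosedIdeal K → IsClosedIdeal K' → K < K' →
      ∃ I : Submodule ℂ A, IsClosedIdeal I ∧ K < I ∧ I ≤ K' ∧
        ∀ (B : Type u) [NonUnitalCStarAlgebra B] [PartialOrder B] [StarOrderedRing B]
          (φ : A →⋆ₙₐ[ℂ] B), Function.Surjective φ →
          (∀ x, φ x = 0 ↔ x ∈ (I ⊔ colon K I).topologicalClosure) → EltPI B) : EltPI A := by
  refine eltPI_of_infB fun a ha => ?_
  -- it suffices to find small cuts
  suffices hcut : ∀ κ₀ : ℝ, 0 < κ₀ → Good n a κ₀ ⊥ by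
    refine infB_lim ha fun ε hε => ?_
    obtain ⟨κ, hκ, hκε, h⟩ := infB_of_good hn ha (φ := NonUnitalStarAlgHom.id ℂ A)
      (fun x => ⟨x, rfl⟩) (fun x hx => (Submodule.mem_bot ℂ).1 hx) (hcut ε hε)
    exact ⟨R2.H28.cut a κ, h, (R2.H28.norm_cut_sub_le ha hκ).trans_lt hκε⟩
  intro κ₀ hκ₀
  by_contra hbad
  -- a maximal bad ideal
  obtain ⟨K, -, hKm⟩ := zorn_le_nonempty₀
    {P : Submodule ℂ A | IsClosedIdeal P ∧ ¬ Good n a κ₀ P} (by
      intro c hc hch y hy
      refine ⟨(sSup c).topologicalClosure, ⟨isClosedIdeal_closure fun b x hx => ?_, ?_⟩,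
        fun z hz => (le_sSup hz).trans (Submodule.le_topologicalClosure _)⟩
      · have h1 : ∀ x, x ∈ sSup c ↔ ∃ P ∈ c, x ∈ P := fun x =>
          Submodule.mem_sSup_of_directed ⟨y, hy⟩ hch.directedOn
        obtain ⟨P, hP, hx⟩ := (h1 x).1 hx
        exact ⟨(h1 _).2 ⟨P, hP, ((hc hP).1.2 b x hx).1⟩,
          (h1 _).2 ⟨P, hP, ((hc hP).1.2 b x hx).2⟩⟩
      · intro hg
        obtain ⟨P, hP, hPg⟩ := good_chain hn ha (fun P hP => (hc hP).1) hch ⟨y, hy⟩ hg
        exact (hc hP).2 hPg) ⊥ ⟨isClosedIdeal_bot, hbad⟩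
  obtain ⟨hK, hKbad⟩ := hKm.prop
  have hmax : ∀ P' : Submodule ℂ A, IsClosedIdeal P' → K ≤ P' → ¬ P' ≤ K → Good n a κ₀ P' := by
    intro P' hP' hle hnle
    by_contra hb
    exact hnle (hKm.le_of_ge ⟨hP', hb⟩ hle)
  obtain ⟨D, i1, i2, i3, φ, hφ, hk⟩ := hK.quot
  have hD : WPI D n := wpiE_of_surj hn φ hφ
  have hφa : 0 ≤ φ a := map_nonneg_aux φ ha
  -- `D` is not purely infinite
  have hDn : ¬ EltPI D := by
    intro hD'
    have h1 := infB_cut_of (infB_self_of_eltPI hD' hφa) (half_pos hκ₀)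
    rw [← cut_map φ ha (half_pos hκ₀).le] at h1
    exact hKbad (good_of_infB (half_pos hκ₀) (half_lt_self hκ₀) hφ (fun x hx => (hk x).1 hx) h1)
  refine hDn (eltPI_of D (pi_of_quotients (wpi_of_elt hD) fun B j1 j2 j3 ψ hψ hψi => ?_))
  -- a proper quotient of `D`
  obtain ⟨χ, hχ⟩ : ∃ χ : A →⋆ₙₐ[ℂ] B, χ = ψ.comp φ := ⟨_, rfl⟩
  have hχs : Function.Surjective χ := by rw [hχ]; exact hψ.comp hφ
  let K' : Submodule ℂ A := LinearMap.ker (χ : A →ₗ[ℂ] B)
  have hK'm : ∀ x, x ∈ K' ↔ χ x = 0 := fun x => LinearMap.mem_ker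
  have hK' : IsClosedIdeal K' := by
    refine ⟨?_, fun b x hx => ⟨?_, ?_⟩⟩
    · have e : (K' : Set A) = χ ⁻¹' {0} := by
        ext x; exact hK'm x
      rw [e]
      exact isClosed_singleton.preimage (map_continuous χ)
    · rw [hK'm] at hx ⊢; rw [map_mul, hx, mul_zero]
    · rw [hK'm] at hx ⊢; rw [map_mul, hx, zero_mul]
  have hKK' : K < K' := by
    refine lt_of_le_of_ne (fun x hx => ?_) fun he => hψi ?_
    · rw [hK'm, hχ]
      show ψ (φ x) = 0
      rw [(hk x).2 hx, map_zero]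
    · intro x y hxy
      obtain ⟨x, rfl⟩ := hφ x
      obtain ⟨y, rfl⟩ := hφ y
      have h1 : x - y ∈ K := by
        rw [he, hK'm, hχ]
        show ψ (φ (x - y)) = 0
        rw [map_sub, map_sub, sub_eq_zero]
        exact hxy
      have h2 := (hk _).2 h1
      rwa [map_sub, sub_eq_zero] at h2
  obtain ⟨I, hI, hKI, hIK', hB⟩ := H K K' hK hK' hKK'
  have hc : IsClosedIdeal (colon K I) := isClosedIdeal_colon hK hI
  have hIc : IsClosedIdeal (I ⊔ colon K I).topologicalClosure := by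
    refine isClosedIdeal_closure fun b x hx => ?_
    obtain ⟨u, hu, v, hv, rfl⟩ := Submodule.mem_sup.1 hx
    rw [mul_add, add_mul]
    exact ⟨Submodule.add_mem_sup (hI.2 _ _ hu).1 (hc.2 _ _ hv).1,
      Submodule.add_mem_sup (hI.2 _ _ hu).2 (hc.2 _ _ hv).2⟩
  obtain ⟨C, k1, k2, k3, ρ, hρ, hρk⟩ := hIc.quot
  have hC : EltPI C := hB C ρ hρ hρk
  -- the ideal quotient is `K`
  have hcK : colon K I ≤ K := by
    by_contra hnle
    obtain ⟨κ₁, g1, g2, g3⟩ := good_rows hn ha hI (hmax I hI hKI.le (not_le_of_gt hKI))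
    obtain ⟨κ₂, f1, f2, f3⟩ := good_rows hn ha hc (hmax _ hc (le_colon hK) hnle)
    refine hKbad ⟨max κ₁ κ₂, g1.trans_le (le_max_left _ _), max_lt g2 f2, fun η hη => ?_⟩
    obtain ⟨s, z, hz, hs⟩ := glueR ha (R2.H28.cut_nonneg a (max κ₁ κ₂)) hI hc hK
      (inf_colon hK hI) hρ hρk (diag_of_eltPI C hC) hη
      (f3 _ (le_max_right _ _) (n + n) (η / 5000) (by positivity))
      (g3 _ (le_max_left _ _) (n + n) (η / 5000) (by positivity))
    exact ⟨s, z, hz, fun i j => (hs i j).le⟩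
  refine pi_of_eltPI (eltPI_of_le hρ hC hχs (I := I) (fun x hx => ?_) fun x hx =>
    (hK'm x).1 (hIK' hx))
  have h1 := (hρk x).1 hx
  have h2 : (I ⊔ colon K I).topologicalClosure ≤ I := by
    refine Submodule.topologicalClosure_minimal _ (sup_le le_rfl (hcK.trans hKI.le)) hI.1
  exact h2 h1

end

end Vale.Agent.P133.H779
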