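import Vale.Agent.P133.H779.Main
import Vale.Agent.P133.H330.GlueR

/-!
P133 (helper779): absorption relative to a closed ideal.
-/

open scoped ComplexOrder

namespace Vale.Agent.P133.H779

open Vale.Agent.P133 Vale.Agent.P133.Statement Vale.Agent.P133.H832 Vale.Agent.P133F
  Vale.Agent.P133.H681 Vale.Agent.P133.R2 Vale.Agent.P133.R2.H28 Vale.Agent.P133.H330

universe u

section

variable {A : Type u} [NonUnitalCStarAlgebra A] [PartialOrder A] [StarOrderedRing A]
  {B : Type u} [NonUnitalCStarAlgebra B] [PartialOrder B] [StarOrderedRing B]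

theorem map_nonneg_aux (φ : A →⋆ₙₐ[ℂ] B) {x : A} (hx : 0 ≤ x) : 0 ≤ φ x := by
  have h1 : x = star (CFC.sqrt x) * CFC.sqrt x := by
    rw [(IsSelfAdjoint.of_nonneg (CFC.sqrt_nonneg x)).star_eq, CFC.sqrt_mul_sqrt_self x hx]
  rw [h1, map_mul, map_star]
  exact star_mul_self_nonneg _

/-- comparison passes to quotients -/
theorem infB_map (φ : A →⋆ₙₐ[ℂ] B) {a c : A} (h : InfB a c) : InfB (φ a) (φ c) := by
  refine ⟨map_nonneg_aux φ h.1, fun m ε hε => ?_⟩
  obtain ⟨r, hr⟩ := h.2 m ε hε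
  refine ⟨fun i => φ (r i), fun i j => ?_⟩
  have h2 : star (φ (r i)) * φ a * φ (r j) - (if i = j then φ c else 0) =
      φ (star (r i) * a * r j - (if i = j then c else 0)) := by
    rw [map_sub, map_mul, map_mul, map_star]
    split_ifs
    · rfl
    · rw [map_zero]
  rw [h2]
  exact (NonUnitalStarAlgHom.norm_apply_le φ _).trans_lt (hr i j)

omit [PartialOrder A] [StarOrderedRing A] [PartialOrder B] [StarOrderedRing B] in
theorem inId_map (φ : A →⋆ₙₐ[ℂ] B) {x y : A} (h : InId x y) : InId (φ x) (φ y) := by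
  intro ε hε
  obtain ⟨m, r, s, hrs⟩ := h ε hε
  refine ⟨m, fun k => φ (r k), fun k => φ (s k), ?_⟩
  have h1 : ∑ k, φ (r k) * φ x * φ (s k) - φ y = φ (∑ k, r k * x * s k - y) := by
    rw [map_sub, map_sum]
    simp only [map_mul]
  rw [h1]
  exact (NonUnitalStarAlgHom.norm_apply_le φ _).trans_lt hrs

omit [PartialOrder A] [StarOrderedRing A] [PartialOrder B] [StarOrderedRing B] in
theorem ri_map (φ : A →⋆ₙₐ[ℂ] B) {x y : A} (h : y ∈ RI x) : φ y ∈ RI (φ x) := by
  refine mem_RI.2 fun ε hε => ?_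
  obtain ⟨w, hw⟩ := mem_RI.1 h ε hε
  refine ⟨φ w, ?_⟩
  rw [← map_mul, ← map_sub]
  exact (NonUnitalStarAlgHom.norm_apply_le φ _).trans_lt hw

/-- rows modulo the kernel from rows in the quotient -/
theorem rowsMod_of_infB (φ : A →⋆ₙₐ[ℂ] B) (hφ : Function.Surjective φ) {K : Submodule ℂ A}
    (hk : ∀ x, φ x = 0 → x ∈ K) {a b : A} (h : InfB (φ a) (φ b)) (m : ℕ) {ε : ℝ} (hε : 0 < ε) :
    RowsMod K a b m ε := by
  obtain ⟨r', hr'⟩ := h.2 m (ε / 2) (half_pos hε)
  choose r hr using fun i => hφ (r' i)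
  have key : ∀ i j, ∃ y : A, φ y = φ (star (r i) * a * r j - (if i = j then b else 0)) ∧
      ‖y‖ ≤ ε / 2 := by
    intro i j
    refine exists_lift φ _ (half_pos hε) ?_
    have h2 := (hr' i j).le
    rw [← hr i, ← hr j] at h2
    rw [map_sub, map_mul, map_mul, map_star]
    split_ifs with h3
    · rwa [if_pos h3] at h2
    · rwa [if_neg h3, ← map_zero φ] at h2
  choose y hy1 hy2 using key
  refine ⟨r, fun i j => star (r i) * a * r j - (if i = j then b else 0) - y i j, fun i j =>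
    hk _ (by rw [map_sub, hy1, sub_self]), fun i j => ?_⟩
  rw [sub_sub_cancel]
  exact (hy2 i j).trans_lt (half_lt_self hε)

/-- Absorption, relative to the closed ideal `K`. -/
theorem absorb_rel {n : ℕ} (hW : WPI A n) {a h y : A} (ha : 0 ≤ a) (h0 : 0 ≤ h) (y0 : 0 ≤ y)
    (hhy : h * y = 0) (hha : h ∈ Her a) (hya : y ∈ Her a) (hI : InId h a)
    {J K : Submodule ℂ A} (hJ : IsClosedIdeal J) (hK : IsClosedIdeal K)
    (hJy : ∀ x ∈ J, InfB y (star x * x))
    (hq : ∀ ε : ℝ, 0 < ε → RowsMod (J ⊔ K).topologicalClosure h h n ε) (m : ℕ) {ε : ℝ}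
    (hε : 0 < ε) : RowsMod K a a m ε := by
  obtain ⟨B, i1, i2, i3, φ, hφ, hk⟩ := hK.quot
  have hB : WPI B n := wpiE_of_surj hW φ hφ
  -- the image of `J`
  let N : Submodule ℂ B :=
    { carrier := {x | ∃ j ∈ J, φ j = x}
      add_mem' := by
        rintro _ _ ⟨j, hj, rfl⟩ ⟨j', hj', rfl⟩
        exact ⟨j + j', J.add_mem hj hj', map_add φ _ _⟩
      zero_mem' := ⟨0, J.zero_mem, map_zero φ⟩
      smul_mem' := by
        rintro c _ ⟨j, hj, rfl⟩
        exact ⟨c • j, J.smul_mem c hj, map_smul φ _ _⟩ }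
  have hN : ∀ b x : B, x ∈ N → b * x ∈ N ∧ x * b ∈ N := by
    rintro b _ ⟨j, hj, rfl⟩
    obtain ⟨b', rfl⟩ := hφ b
    exact ⟨⟨b' * j, (hJ.2 _ _ hj).1, map_mul φ _ _⟩, ⟨j * b', (hJ.2 _ _ hj).2, map_mul φ _ _⟩⟩
  have hNc : IsClosedIdeal N.topologicalClosure := isClosedIdeal_closure hN
  have hNy : ∀ x ∈ N.topologicalClosure, InfB (φ y) (star x * x) := by
    intro x hx
    refine infB_closure (N := N) ?_ hx
    rintro _ ⟨j, hj, rfl⟩
    rw [← map_star, ← map_mul]
    exact infB_map φ (hJy j hj)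
  have hz : ∀ z ∈ (J ⊔ K).topologicalClosure, φ z ∈ N.topologicalClosure := by
    intro z hz
    refine map_mem_closure (f := φ) (s := ((J ⊔ K : Submodule ℂ A) : Set A))
      (t := (N : Set B)) (map_continuous φ) hz fun w hw => ?_
    obtain ⟨j, hj, k, hkK, rfl⟩ := Submodule.mem_sup.1 hw
    exact ⟨j, hj, by rw [map_add, (hk k).2 hkK, add_zero]⟩
  have h1 : InfB (φ a) (φ h) := by
    refine infB_absorb hB (map_nonneg_aux φ ha) (map_nonneg_aux φ h0) (map_nonneg_aux φ y0)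
      (by rw [← map_mul, hhy, map_zero]) (ri_map φ (Her.mem_RI hha)) (ri_map φ (Her.mem_RI hya))
      hNc hNy fun τ hτ => ?_
    obtain ⟨r, z, hzm, hr⟩ := hq τ hτ
    refine ⟨fun i => φ (r i), fun i j => φ (z i j), fun i j => hz _ (hzm i j), fun i j => ?_⟩
    have h2 : star (φ (r i)) * φ h * φ (r j) - (if i = j then φ h else 0) - φ (z i j) =
        φ (star (r i) * h * r j - (if i = j then h else 0) - z i j) := by
      rw [map_sub, map_sub, map_mul, map_mul, map_star]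
      split_ifs
      · rfl
      · rw [map_zero]
    rw [h2]
    exact (NonUnitalStarAlgHom.norm_apply_le φ _).trans_lt (hr i j)
  exact rowsMod_of_infB φ hφ (fun x hx => (hk x).1 hx) (h1.sub
    (H832.subId_of_inId' (map_nonneg_aux φ h0) (map_nonneg_aux φ ha) (inId_map φ hI))) m hε

end

end Vale.Agent.P133.H779
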