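import Vale.Agent.P133.H216.CompDef
import Vale.Agent.P133.H330.TopBase
import Vale.Agent.P133.H779.Sigma
import Vale.Agent.P133.R2.H28.Conv

/-!
P133 (helper779): quasi-compact open sets and compact ideals.
-/

open scoped ComplexOrder

namespace Vale.Agent.P133.H779

open Vale.Agent.P133 Vale.Agent.P133.Statement Vale.Agent.P133.H832 Vale.Agent.P133F
  Vale.Agent.P133.H681 Vale.Agent.P133.R2 Vale.Agent.P133.R2.H28 Vale.Agent.P133.H330
  Vale.Agent.P133.H512 TopologicalSpace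

universe u

section

variable {A : Type u} [NonUnitalCStarAlgebra A] [PartialOrder A] [StarOrderedRing A]

/-- if `(b - s)₊` is in the closed ideal `P`, `0 ≤ a ≤ b` and `s ≤ r`, so is `(a - r)₊` -/
theorem cut_mem_of_le {P : Submodule ℂ A} (hP : IsClosedIdeal P) {a b : A} (ha : 0 ≤ a)
    (hab : a ≤ b) {s r : ℝ} (hs : 0 < s) (hsr : s ≤ r) (h : R2.H28.cut b s ∈ P) :
    R2.H28.cut a r ∈ P := by
  obtain ⟨B, i1, i2, i3, φ, hφ, hk⟩ := hP.quot
  have h1 : ‖φ b‖ ≤ s := by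
    have h2 := R2.H28.norm_cut_sub_le (map_nonneg_aux φ (ha.trans hab)) hs
    rw [← cut_map φ (ha.trans hab) hs.le, (hk _).2 h, zero_sub, norm_neg] at h2
    exact h2
  have h2 : ‖φ a‖ ≤ s := by
    refine (CStarAlgebra.norm_le_norm_of_nonneg_of_le (map_nonneg_aux φ ha) ?_).trans h1
    have h3 := map_nonneg_aux φ (sub_nonneg.2 hab)
    rwa [map_sub, sub_nonneg] at h3
  exact R2.H28.cut_mem_of_norm ha (hs.trans_le hsr) φ hk (h2.trans hsr)

/-- A relatively open subset `O ∩ Y` of the closed set `Y` which is quasi-compact gives a compact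
ideal. -/
theorem compactMod_of_isCompact {X : Type u} [TopologicalSpace X] {e : Opens X → Submodule ℂ A}
    (he : ∀ O, IsClosedIdeal (e O)) (hs : ∀ I, IsClosedIdeal I → ∃ O, e O = I)
    (hle : ∀ O O', e O ≤ e O' ↔ O ≤ O') {Y : Set X} (hY : IsClosed Y) {O : Opens X}
    (hc : IsCompact ((O : Set X) ∩ Y)) : H216.CompactMod (e (co hY)) (e O) := by
  let T := {q : A × ℝ // (0 ≤ q.1 ∧ q.1 ∈ e O) ∧ 0 < q.2}
  have hW : ∀ q : T, ∃ W : Opens X, R2.H28.cut q.1.1 q.1.2 ∈ e W ∧ e (co hY) ≤ e W ∧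
      ∀ P', IsClosedIdeal P' → e (co hY) ≤ P' → R2.H28.cut q.1.1 q.1.2 ∈ P' → e W ≤ P' := by
    intro q
    obtain ⟨I, hI, hI'⟩ := isClosedIdeal_inId (R2.H28.cut q.1.1 q.1.2)
    obtain ⟨W, hW⟩ := hs _ (Vale.Agent.P133.H779.isClosedIdeal_sup hI (he (co hY)))
    refine ⟨W, ?_, ?_, ?_⟩
    · rw [hW]
      exact Submodule.le_topologicalClosure _ (Submodule.mem_sup_left ((hI' _).2 (InId.refl _)))
    · rw [hW]
      exact le_sup_right.trans (Submodule.le_topologicalClosure _)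
    · intro P' hP' h1 h2
      rw [hW]
      exact Submodule.topologicalClosure_minimal _
        (sup_le (fun z hz => hP'.inId h2 ((hI' z).1 hz)) h1) hP'.1
  choose W hW1 hW2 hW3 using hW
  have hT : Nonempty T := ⟨⟨(0, 1), ⟨le_rfl, (e O).zero_mem⟩, one_pos⟩⟩
  have hcov : (O : Set X) ∩ Y ⊆ ⋃ q, (W q : Set X) := by
    have h1 : e O ≤ e (⨆ q, W q) := by
      intro x hx
      have hcl := he (⨆ q, W q)
      have h0 : star x * x ∈ e O := ((he O).2 _ _ hx).1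
      refine hcl.of_star_mul_self (hcl.lim fun ε hε => ?_)
      refine ⟨R2.H28.cut (star x * x) (ε / 2), ?_, ?_⟩
      · exact (hle _ _).2 (le_iSup W (⟨(star x * x, ε / 2), ⟨star_mul_self_nonneg x, h0⟩,
          half_pos hε⟩ : T)) (hW1 _)
      · exact (R2.H28.norm_cut_sub_le (star_mul_self_nonneg x) (half_pos hε)).trans_lt
          (half_lt_self hε)
    intro x hx
    have h2 : x ∈ (⨆ q, W q : Opens X) := (hle _ _).1 h1 hx.1
    obtain ⟨q, hq⟩ := Opens.mem_iSup.1 h2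
    exact Set.mem_iUnion.2 ⟨q, hq⟩
  have hdir : Directed (· ⊆ ·) fun q : T => (W q : Set X) := by
    intro q q'
    have h0 : 0 < min q.1.2 q'.1.2 := lt_min q.2.2 q'.2.2
    let p : T := ⟨(q.1.1 + q'.1.1, min q.1.2 q'.1.2),
      ⟨add_nonneg q.2.1.1 q'.2.1.1, (e O).add_mem q.2.1.2 q'.2.1.2⟩, h0⟩
    refine ⟨p, ?_, ?_⟩
    · exact (hle _ _).1 (hW3 q _ (he _) (hW2 p) (cut_mem_of_le (he _) q.2.1.1
        (le_add_of_nonneg_right q'.2.1.1) h0 (min_le_left _ _) (hW1 p)))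
    · exact (hle _ _).1 (hW3 q' _ (he _) (hW2 p) (cut_mem_of_le (he _) q'.2.1.1
        (le_add_of_nonneg_left q.2.1.1) h0 (min_le_right _ _) (hW1 p)))
  obtain ⟨q, hq⟩ := hc.elim_directed_cover (fun q : T => (W q : Set X)) (fun q => (W q).2) hcov hdir
  refine ⟨q.1.1, q.2.1.1, q.2.1.2, q.1.2, q.2.2, fun P' hP' h1 h2 => ?_⟩
  refine le_trans ((hle _ _).2 fun x hx => ?_) (hW3 q P' hP' h1 h2)
  by_cases hxY : x ∈ Y
  · exact hq ⟨hx, hxY⟩
  · exact (hle _ _).1 (hW2 q) hxY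

end

end Vale.Agent.P133.H779
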