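import Vale.Agent.P133.H779.Local

/-!
P133 (helper779): the two rules on subquotients, as criteria.
-/

open scoped ComplexOrder

namespace Vale.Agent.P133.H779

open Vale.Agent.P133 Vale.Agent.P133.Statement Vale.Agent.P133F Vale.Agent.P133.H681
  Vale.Agent.P133.H832 Vale.Agent.P133.H512

universe u

variable {A : Type u} [NonUnitalCStarAlgebra A] [PartialOrder A] [StarOrderedRing A]

/-- subquotients of purely infinite algebras -/
theorem pi_subquot {J K : Submodule ℂ A} {C : Type u} [NonUnitalCStarAlgebra C]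
    [PartialOrder C] [StarOrderedRing C] (hA : PurelyInfinite A) (h : IsSubquot J K C) :
    PurelyInfinite C :=
  pi_of_eltPI (eltPI_of_wpi1 (wpi_subquot (wpi1_of_pi hA) h))

theorem builtFrom_clause {T : Type u} {C : T → Type u} [∀ t, NonUnitalCStarAlgebra (C t)]
    [∀ t, PartialOrder (C t)] [∀ t, StarOrderedRing (C t)] (h : IsBuiltFrom C A) :
    (PurelyInfinite A ↔ WeaklyPurelyInfinite A ∧ ∀ t, PurelyInfinite (C t)) ∧
      ((∀ t, Coincide (C t)) → Coincide A) := by
  refine ⟨⟨fun hA => ⟨wpi_of_pi hA, fun t => ?_⟩,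
    fun hA => wpi_builtFrom h (fun t _ => hA.2 t) hA.1⟩,
    fun hC => coincide_of (wpi_builtFrom h fun t => (hC t).1.1)⟩
  obtain ⟨J, K, hJK, -⟩ := h
  exact pi_subquot hA (hJK t)

/-- the class is closed under extensions -/
theorem builtL_ext {J : Submodule ℂ A} {C D : Type u}
    [NonUnitalCStarAlgebra C] [PartialOrder C] [StarOrderedRing C]
    [NonUnitalCStarAlgebra D] [PartialOrder D] [StarOrderedRing D]
    (h1 : IsSubquot ⊥ J C) (h2 : IsSubquot J ⊤ D) (hC : BuiltL C) (hD : BuiltL D) :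
    BuiltL A := by
  have hJ : IsClosedIdeal J := h2.1
  let C' : ULift.{u} Bool → Type u := fun t => cond t.down C D
  let i1 : ∀ t, NonUnitalCStarAlgebra (C' t) := fun t => match t with
    | ⟨true⟩ => (inferInstance : NonUnitalCStarAlgebra C)
    | ⟨false⟩ => (inferInstance : NonUnitalCStarAlgebra D)
  let i2 : ∀ t, PartialOrder (C' t) := fun t => match t with
    | ⟨true⟩ => (inferInstance : PartialOrder C)
    | ⟨false⟩ => (inferInstance : PartialOrder D)
  let i3 : ∀ t, StarOrderedRing (C' t) := fun t => match t with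
    | ⟨true⟩ => (inferInstance : StarOrderedRing C)
    | ⟨false⟩ => (inferInstance : StarOrderedRing D)
  refine BuiltL.sub (ULift.{u} Bool) C' A ⟨fun t => cond t.down ⊥ J, fun t => cond t.down J ⊤,
    fun t => ?_, Or.inl fun P Q hP hQ hPQ => ?_⟩ fun t => ?_
  · match t with
    | ⟨true⟩ => exact h1
    | ⟨false⟩ => exact h2
  · by_cases h : Q ⊓ J ≤ P
    · exact ⟨Q, hQ, hPQ, le_rfl, Or.inr ⟨⟨false⟩, Or.inl ⟨h,
        le_top.trans (le_sup_right.trans (Submodule.le_topologicalClosure _))⟩⟩⟩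
    · have h3 : P ≤ (P ⊔ Q ⊓ J).topologicalClosure :=
        le_sup_left.trans (Submodule.le_topologicalClosure _)
      have h4 : Q ⊓ J ≤ (P ⊔ Q ⊓ J).topologicalClosure :=
        le_sup_right.trans (Submodule.le_topologicalClosure _)
      refine ⟨(P ⊔ Q ⊓ J).topologicalClosure,
        isClosedIdeal_sup hP (H330.isClosedIdeal_inf hQ hJ),
        lt_of_le_of_ne h3 fun he => h (h4.trans he.ge),
        Submodule.topologicalClosure_minimal _ (sup_le hPQ.le inf_le_left) hQ.1,
        Or.inr ⟨⟨true⟩, Or.inl ⟨inf_le_right.trans bot_le, ?_⟩⟩⟩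
      exact Submodule.topologicalClosure_mono (sup_le_sup_left inf_le_right P)
  · match t with
    | ⟨true⟩ => exact hC
    | ⟨false⟩ => exact hD

/-- the class is closed under closed sums of closed ideals -/
theorem builtL_sum {T : Type u} {K : T → Submodule ℂ A}
    {C : T → Type u} [∀ t, NonUnitalCStarAlgebra (C t)] [∀ t, PartialOrder (C t)]
    [∀ t, StarOrderedRing (C t)] (h : ∀ t, IsSubquot ⊥ (K t) (C t)) (hC : ∀ t, BuiltL (C t))
    (hs : (⨆ t, K t).topologicalClosure = ⊤) : BuiltL A := by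
  have hK : ∀ t, IsClosedIdeal (K t) := fun t => (h t).2.1
  refine BuiltL.sub T C A ⟨fun _ => ⊥, K, h, Or.inl fun P Q hP hQ hPQ => ?_⟩ hC
  obtain ⟨t, ht⟩ : ∃ t, ¬ Q ⊓ K t ≤ P := by
    by_contra hno
    push Not at hno
    have h1 : (⨆ t, K t) ≤ colon P Q := iSup_le fun t x hx y hy =>
      hno t ⟨(hQ.2 _ _ hy).1, ((hK t).2 _ _ hx).2⟩
    have h2 : (⨆ t, K t).topologicalClosure ≤ colon P Q :=
      Submodule.topologicalClosure_minimal _ h1 (isClosedIdeal_colon hP hQ).1
    rw [hs] at h2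
    exact absurd (fun x hx => inf_colon hP hQ x hx (h2 Submodule.mem_top)) hPQ.not_ge
  have h3 : P ≤ (P ⊔ Q ⊓ K t).topologicalClosure :=
    le_sup_left.trans (Submodule.le_topologicalClosure _)
  have h4 : Q ⊓ K t ≤ (P ⊔ Q ⊓ K t).topologicalClosure :=
    le_sup_right.trans (Submodule.le_topologicalClosure _)
  refine ⟨(P ⊔ Q ⊓ K t).topologicalClosure,
    isClosedIdeal_sup hP (H330.isClosedIdeal_inf hQ (hK t)),
    lt_of_le_of_ne h3 fun he => ht (h4.trans he.ge),
    Submodule.topologicalClosure_minimal _ (sup_le hPQ.le inf_le_left) hQ.1,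
    Or.inr ⟨t, Or.inl ⟨inf_le_right.trans bot_le, ?_⟩⟩⟩
  exact Submodule.topologicalClosure_mono (sup_le_sup_left inf_le_right P)

end Vale.Agent.P133.H779
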