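import Vale.Agent.P133.H779.Gen

/-!
P133 (helper779): absorption of the error of a comparison modulo an ideal by an orthogonal element.
-/

open scoped ComplexOrder

namespace Vale.Agent.P133.H779

open Vale.Agent.P133 Vale.Agent.P133.Statement Vale.Agent.P133.H832 Vale.Agent.P133F
  Vale.Agent.P133.H681 Vale.Agent.P133.R2 Vale.Agent.P133.R2.H28

universe u

section

variable {A : Type u} [NonUnitalCStarAlgebra A] [PartialOrder A] [StarOrderedRing A]

/-- approximate units of closed ideals -/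
theorem unit_ideal {ι : Type} [Fintype ι] {J : Submodule ℂ A} (hJ : IsClosedIdeal J) (x : ι → A)
    (hx : ∀ i, x i ∈ J) {ε : ℝ} (hε : 0 < ε) :
    ∃ g : A, 0 ≤ g ∧ ‖g‖ ≤ 1 ∧ g ∈ J ∧ ∀ i, ‖(x i - g * x i) - (x i - g * x i) * g‖ ≤ ε := by
  have hL : ∀ a x : A, x ∈ J → a * x ∈ J := fun a x hx => (hJ.2 a x hx).1
  have hR : ∀ a x : A, x ∈ J → x * a ∈ J := fun a x hx => (hJ.2 a x hx).2
  have hS : ∀ x ∈ J, star x ∈ J := fun x hx => hJ.star_mem hx
  obtain ⟨ν, hν, hνn⟩ := exists_approx_unit (ι := ι) (idealU J hJ.1 hL hR hS)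
    (c := fun i => (x i : Unitization ℂ A)) (fun i => mem_idealU.2 (hx i))
    (ε := ε / 2) (by positivity)
  have hνf : ν ∈ final_ideal A := hν.mem.1
  obtain ⟨g, rfl⟩ := final_mem_iff.1 hνf
  have hg0 : 0 ≤ g := by
    have := hν.nonneg
    rwa [Unitization.inr_nonneg_iff] at this
  have hg1 : ‖g‖ ≤ 1 := by
    rw [← final_norm]; exact hν.norm_le
  refine ⟨g, hg0, hg1, mem_idealU.1 hν.mem, fun i => ?_⟩
  have k2 := (hνn i).2
  have e2 : ‖x i - g * x i‖ < ε / 2 := by
    rw [← final_norm, Unitization.inr_sub, Unitization.inr_mul]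
    have : (x i : Unitization ℂ A) - (g : Unitization ℂ A) * (x i : Unitization ℂ A) =
      (1 - (g : Unitization ℂ A)) * (x i : Unitization ℂ A) := by noncomm_ring
    rw [this]; exact k2
  calc _ ≤ ‖x i - g * x i‖ + ‖(x i - g * x i) * g‖ := norm_sub_le _ _
    _ ≤ ε / 2 + ε / 2 * 1 := add_le_add e2.le (norm_mul_le_of_le e2.le hg1)
    _ = ε := by ring

/-- vectors in the closed right ideal of `z` come from rows -/
theorem rows_of_vectors {z : A} (hz : 0 ≤ z) {n : ℕ} (v : Fin n → A) (hv : ∀ i, v i ∈ RI z)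
    {ε : ℝ} (hε : 0 < ε) :
    ∃ w : Fin n → A, ∀ i j, ‖star (w i) * z * w j - star (v i) * v j‖ ≤ ε := by
  have hqs : star (CFC.sqrt z) = CFC.sqrt z :=
    (IsSelfAdjoint.of_nonneg (CFC.sqrt_nonneg z)).star_eq
  have hqq : CFC.sqrt z * CFC.sqrt z = z := CFC.sqrt_mul_sqrt_self z hz
  have hz' : z ∈ RI (CFC.sqrt z) := by
    have := RI.mul_self (CFC.sqrt z) (CFC.sqrt z)
    rwa [hqq] at this
  set C : ℝ := ∑ i, ‖v i‖ with hC
  have hC0 : 0 ≤ C := Finset.sum_nonneg fun i _ => norm_nonneg _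
  have hCi : ∀ i, ‖v i‖ ≤ C := fun i =>
    Finset.single_le_sum (f := fun i => ‖v i‖) (fun i _ => norm_nonneg _) (Finset.mem_univ i)
  set η : ℝ := min 1 (ε / (2 * C + 1)) with hη
  have hη0 : 0 < η := by rw [hη]; positivity
  have hη1 : η ≤ 1 := min_le_left _ _
  have hη2 : η * (2 * C + 1) ≤ ε := by
    rw [← le_div_iff₀ (by positivity)]; exact min_le_right _ _
  choose w hw using fun i => mem_RI.1 (RI.trans (hv i) hz') η hη0
  refine ⟨w, fun i j => ?_⟩
  have e1 : star (w i) * z * w j - star (v i) * v j =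
      star (CFC.sqrt z * w i - v i) * (CFC.sqrt z * w j) +
        star (v i) * (CFC.sqrt z * w j - v j) := by
    have e2 : star (w i) * z * w j = star (CFC.sqrt z * w i) * (CFC.sqrt z * w j) := by
      rw [star_mul, hqs]
      nth_rewrite 1 [← hqq]
      simp only [mul_assoc]
    rw [e2, star_sub, sub_mul, mul_sub]; abel
  have e3 : ‖CFC.sqrt z * w j‖ ≤ C + η := by
    calc ‖CFC.sqrt z * w j‖ = ‖v j + (CFC.sqrt z * w j - v j)‖ := by rw [add_sub_cancel]
      _ ≤ ‖v j‖ + ‖CFC.sqrt z * w j - v j‖ := norm_add_le _ _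
      _ ≤ C + η := add_le_add (hCi j) (hw j).le
  rw [e1]
  calc _ ≤ ‖star (CFC.sqrt z * w i - v i) * (CFC.sqrt z * w j)‖ +
        ‖star (v i) * (CFC.sqrt z * w j - v j)‖ := norm_add_le _ _
    _ ≤ η * (C + η) + C * η := add_le_add
        (norm_mul_le_of_le (by rw [norm_star]; exact (hw i).le) e3)
        (norm_mul_le_of_le (by rw [norm_star]; exact hCi i) (hw j).le)
    _ ≤ ε := by nlinarith

/-- The error term of a comparison modulo `J` is absorbed by `y`. -/
theorem infB_absorb {n : ℕ} (hW : WPI A n) {a h y : A} (ha : 0 ≤ a) (h0 : 0 ≤ h) (y0 : 0 ≤ y)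
    (hhy : h * y = 0) (hha : h ∈ RI a) (hya : y ∈ RI a)
    {J : Submodule ℂ A} (hJ : IsClosedIdeal J) (hJy : ∀ x ∈ J, InfB y (star x * x))
    (hq : ∀ ε : ℝ, 0 < ε → ∃ (s : Fin n → A) (z : Fin n → Fin n → A), (∀ i j, z i j ∈ J) ∧
      ∀ i j, ‖star (s i) * h * s j - (if i = j then h else 0) - z i j‖ < ε) : InfB a h := by
  obtain ⟨k, hk⟩ : ∃ k : A, k = CFC.sqrt h := ⟨_, rfl⟩
  have hks : star k = k := by rw [hk]; exact (IsSelfAdjoint.of_nonneg (CFC.sqrt_nonneg h)).star_eq
  have hkk : k * k = h := by rw [hk]; exact CFC.sqrt_mul_sqrt_self h h0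
  obtain ⟨l, hl⟩ : ∃ l : A, l = CFC.sqrt y := ⟨_, rfl⟩
  have hls : star l = l := by rw [hl]; exact (IsSelfAdjoint.of_nonneg (CFC.sqrt_nonneg y)).star_eq
  have hll : l * l = y := by rw [hl]; exact CFC.sqrt_mul_sqrt_self y y0
  have hkRI : k ∈ RI h := by rw [hk]; exact sqrt_mem_RI h0
  have hlRI : l ∈ RI y := by rw [hl]; exact sqrt_mem_RI y0
  have hkl : k * l = 0 := by
    have h1 := RI.orth (z := h) (z' := y) (by rw [(IsSelfAdjoint.of_nonneg h0).star_eq]; exact hhy)
      hkRI hlRI
    rwa [hks] at h1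
  have hlk : l * k = 0 := by
    have h1 := congrArg star hkl
    rwa [star_mul, hks, hls, star_zero] at h1
  refine infB_of_wpi hW h0 fun τ hτ => ?_
  set K : ℝ := ‖k‖ * ‖k‖ / (τ / 2) + 1 with hK
  have hK0 : 0 < K := by positivity
  set ε : ℝ := τ / (40 * K) with hε
  have hε0 : 0 < ε := by positivity
  obtain ⟨s, z, hzJ, hs⟩ := hq ε hε0
  obtain ⟨g, hg0, hg1, hgJ, hgz⟩ := unit_ideal hJ (fun p : Fin n × Fin n => z p.1 p.2)
    (fun p => hzJ _ _) hε0
  have hgs : star g = g := (IsSelfAdjoint.of_nonneg hg0).star_eq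
  have hkg : k * g ∈ J := (hJ.2 k g hgJ).1
  obtain ⟨u, hu⟩ := (hJy _ hkg).2 n ε hε0
  -- the total
  set Q : A := ((h - g * h) - (h - g * h) * g) + g * h * g with hQ
  have hkg2 : star (k * g) * (k * g) = g * h * g := by
    rw [star_mul, hks, hgs, ← hkk]; simp only [mul_assoc]
  have hQle : k * k ≤ (2 : ℝ) • Q := by
    have e1 : (2 : ℝ) • Q - k * k = star (k - (2 : ℝ) • (k * g)) * (k - (2 : ℝ) • (k * g)) := by
      have e2 : star (k - (2 : ℝ) • (k * g)) * (k - (2 : ℝ) • (k * g)) =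
          k * k - (2 : ℝ) • (k * k * g) - (2 : ℝ) • (g * (k * k)) +
            (2 : ℝ) • ((2 : ℝ) • (g * (k * k) * g)) := by
        rw [star_sub, star_smul, star_trivial (2 : ℝ), star_mul, hks, hgs, sub_mul, mul_sub,
          mul_sub, mul_smul_comm, smul_mul_assoc, smul_mul_smul_comm, smul_smul]
        simp only [mul_assoc]
        abel
      rw [e2, hkk, hQ]
      simp only [two_smul, sub_mul]
      abel
    rw [← sub_nonneg, e1]
    exact star_mul_self_nonneg _
  obtain ⟨D, hDn, hD⟩ := order_lemma' hks hQle (half_pos hτ)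
  have hDK : ‖D‖ * ‖D‖ ≤ K := hDn.trans (by rw [hK]; linarith)
  -- the vectors
  set V : Fin n → A := fun i => k * (s i - s i * g) + l * u i with hV
  have hVa : ∀ i, V i ∈ RI a := fun i =>
    RI.add (RI.mul (RI.trans hkRI hha) _) (RI.mul (RI.trans hlRI hya) _)
  have hVV : ∀ i j, ‖star (V i) * V j - (if i = j then Q else 0)‖ ≤ 6 * ε := by
    intro i j
    have e1 : star (V i) * V j = star (s i - s i * g) * h * (s j - s j * g) +
        star (u i) * y * u j := by
      simp only [hV, star_add, star_mul, hks, hls, add_mul, mul_add]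
      have h1 : star (s i - s i * g) * k * (l * u j) = 0 := by
        calc _ = star (s i - s i * g) * (k * l) * u j := by simp only [mul_assoc]
          _ = 0 := by rw [hkl]; simp
      have h2 : star (u i) * l * (k * (s j - s j * g)) = 0 := by
        calc _ = star (u i) * (l * k) * (s j - s j * g) := by simp only [mul_assoc]
          _ = 0 := by rw [hlk]; simp
      rw [h1, h2, add_zero, zero_add, ← hkk, ← hll]
      simp only [mul_assoc]
    set x : A := star (s i) * h * s j - (if i = j then h else 0) - z i j with hx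
    have hxn : ‖x‖ ≤ ε := (hs i j).le
    have e2 : star (s i - s i * g) * h * (s j - s j * g) -
        (if i = j then (h - g * h) - (h - g * h) * g else 0) =
        ((x - g * x) - (x - g * x) * g) + ((z i j - g * z i j) - (z i j - g * z i j) * g) := by
      rw [star_sub, star_mul, hgs, hx]
      split_ifs <;> noncomm_ring
    have e3 : star (V i) * V j - (if i = j then Q else 0) =
        (((x - g * x) - (x - g * x) * g) + ((z i j - g * z i j) - (z i j - g * z i j) * g)) +
          (star (u i) * y * u j - (if i = j then g * h * g else 0)) := by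
      rw [e1, ← e2, hQ]
      split_ifs
      · abel
      · abel
    have h1 : ‖x - g * x‖ ≤ 2 * ε := by
      calc _ ≤ ‖x‖ + ‖g * x‖ := norm_sub_le _ _
        _ ≤ ε + 1 * ε := add_le_add hxn (norm_mul_le_of_le hg1 hxn)
        _ = 2 * ε := by ring
    have h2 : ‖(x - g * x) - (x - g * x) * g‖ ≤ 4 * ε := by
      calc _ ≤ ‖x - g * x‖ + ‖(x - g * x) * g‖ := norm_sub_le _ _
        _ ≤ 2 * ε + 2 * ε * 1 := add_le_add h1 (norm_mul_le_of_le h1 hg1)
        _ = 4 * ε := by ring
    have h3 := (hu i j).le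
    rw [hkg2] at h3
    rw [e3]
    calc _ ≤ ‖((x - g * x) - (x - g * x) * g) + ((z i j - g * z i j) - (z i j - g * z i j) * g)‖ +
          ‖star (u i) * y * u j - (if i = j then g * h * g else 0)‖ := norm_add_le _ _
      _ ≤ (4 * ε + ε) + ε := add_le_add ((norm_add_le _ _).trans
          (add_le_add h2 (hgz (i, j)))) h3
      _ = 6 * ε := by ring
  obtain ⟨T, hT⟩ := rows_of_vectors ha V hVa hε0
  have hTT : ∀ i j, ‖star (T i) * a * T j - (if i = j then Q else 0)‖ ≤ 10 * ε := by
    intro i j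
    have e1 : star (T i) * a * T j - (if i = j then Q else 0) =
        (star (T i) * a * T j - star (V i) * V j) +
          (star (V i) * V j - (if i = j then Q else 0)) := by abel
    rw [e1]
    calc _ ≤ _ := norm_add_le _ _
      _ ≤ ε + 6 * ε := add_le_add (hT i j) (hVV i j)
      _ ≤ 10 * ε := by linarith
  -- the final vectors
  have h22 : √(2 : ℝ) * √2 = 2 := Real.mul_self_sqrt (by norm_num)
  refine ⟨fun i => √(2 : ℝ) • (T i * D), fun i j => ?_⟩
  have e1 : star (√(2 : ℝ) • (T i * D)) * a * (√(2 : ℝ) • (T j * D)) -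
      (if i = j then h else 0) =
      (2 : ℝ) • (star D * (star (T i) * a * T j - (if i = j then Q else 0)) * D) +
        (if i = j then star D * ((2 : ℝ) • Q) * D - k * k else 0) := by
    rw [star_smul, star_trivial (√(2 : ℝ)), smul_mul_assoc, smul_mul_smul_comm, h22, star_mul]
    split_ifs
    · rw [mul_sub, sub_mul, smul_sub, hkk, mul_smul_comm, smul_mul_assoc]
      simp only [mul_assoc]
      abel
    · simp only [sub_zero, add_zero, mul_assoc]
  rw [e1]
  have h1 : ‖(2 : ℝ) • (star D * (star (T i) * a * T j - (if i = j then Q else 0)) * D)‖ ≤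
      τ / 2 := by
    rw [norm_smul, Real.norm_of_nonneg (by norm_num)]
    calc 2 * ‖star D * (star (T i) * a * T j - (if i = j then Q else 0)) * D‖
        ≤ 2 * (‖D‖ * (10 * ε) * ‖D‖) := by
          gcongr
          exact norm_mul_le_of_le (norm_mul_le_of_le (norm_star _).le (hTT i j)) le_rfl
      _ = 20 * ε * (‖D‖ * ‖D‖) := by ring
      _ ≤ 20 * ε * K := by gcongr
      _ = τ / 2 := by rw [hε]; field_simp; norm_num
  have h2 : ‖(if i = j then star D * ((2 : ℝ) • Q) * D - k * k else 0)‖ ≤ τ / 2 := by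
    split_ifs
    · exact hD
    · rw [norm_zero]; positivity
  calc _ ≤ _ := norm_add_le _ _
    _ ≤ τ := by linarith

/-- Absorption: `h` and `y` are orthogonal elements of the hereditary subalgebra of `a`, the
closed ideal of `h` contains `a`, all multiples of the elements of `J` are below `y`, and `h` is
properly infinite modulo `J`. Then `a` is properly infinite. -/
theorem absorb {n : ℕ} (hW : WPI A n) {a h y : A} (ha : 0 ≤ a) (h0 : 0 ≤ h) (y0 : 0 ≤ y)
    (hhy : h * y = 0) (hha : h ∈ Her a) (hya : y ∈ Her a) (hI : InId h a)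
    {J : Submodule ℂ A} (hJ : IsClosedIdeal J) (hJy : ∀ x ∈ J, InfB y (star x * x))
    (hq : ∀ ε : ℝ, 0 < ε → ∃ (s : Fin n → A) (z : Fin n → Fin n → A), (∀ i j, z i j ∈ J) ∧
      ∀ i j, ‖star (s i) * h * s j - (if i = j then h else 0) - z i j‖ < ε) : InfB a a :=
  (infB_absorb hW ha h0 y0 hhy (Her.mem_RI hha) (Her.mem_RI hya) hJ hJy hq).sub
    (H832.subId_of_inId' h0 ha hI)

end

end Vale.Agent.P133.H779
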