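import Vale.Agent.P133.H779.ClassDef
import Vale.Agent.P133.H216.Compact
import Vale.Agent.P133.H294.Weak
import Vale.Agent.P133.H512.Clause
import Vale.Agent.P133.R2.H695.Clauses
import Vale.Agent.P133.R2.H307.BuiltCB

/-!
P133 (helper779): the three notions of pure infiniteness coincide for the class `BuiltS`.
-/

namespace Vale.Agent.P133.H779

open Vale.Agent.P133.Statement Vale.Agent.P133F Vale.Agent.P133.H681 Vale.Agent.P133.H832
  Vale.Agent.P133.R2.H778 Vale.Agent.P133.R2.H307 Vale.Agent.P133.H512 Vale.Agent.P133.H695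

universe u

theorem wpi_indC {K : Type u} {C : K → Type u} [∀ k, NonUnitalCStarAlgebra (C k)]
    [∀ k, PartialOrder (C k)] [∀ k, StarOrderedRing (C k)]
    {A : Type u} [NonUnitalCStarAlgebra A] [PartialOrder A] [StarOrderedRing A]
    (h : IsIndAlongC C A) (hC : ∀ k, WeaklyPurelyInfinite (C k) → PurelyInfinite (C k)) :
    WeaklyPurelyInfinite A → PurelyInfinite A := by
  intro hW
  obtain ⟨n, hn⟩ := wpi_elementwise hW
  refine pi_of_eltPI (H216.eltPI_of_ind' hn fun P Q hP hQ hPQ => ?_)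
  obtain ⟨I, hI, hPI, hIQ, h1 | ⟨L, hL, hIL, k, φ, hφ, hk⟩⟩ := h P Q hP hQ hPQ
  · exact ⟨I, hI, hPI, hIQ, Or.inr h1⟩
  · refine ⟨I, hI, hPI, hIQ, Or.inl fun B _ _ _ χ hχ hχk => ?_⟩
    refine eltPI_of_le hφ (eltPI_of (C k) (hC k (wpi_of_surj φ hφ hW))) hχ
      (fun x hx => (hk x).1 hx) fun x hx => (hχk x).2 ?_
    have h2 : L ≤ colon P I := fun y hy z hz =>
      hIL ⟨(hI.2 _ _ hz).1, (hL.2 _ _ hy).2⟩
    exact Submodule.topologicalClosure_mono (sup_le_sup_left h2 I) hx

theorem wpi_cover {C : ℕ → Type u} [∀ k, NonUnitalCStarAlgebra (C k)]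
    [∀ k, PartialOrder (C k)] [∀ k, StarOrderedRing (C k)]
    {A : Type u} [NonUnitalCStarAlgebra A] [PartialOrder A] [StarOrderedRing A]
    (h : IsCoverAlong C A) (hC : ∀ k, WeaklyPurelyInfinite (C k) → PurelyInfinite (C k)) :
    WeaklyPurelyInfinite A → PurelyInfinite A := by
  intro hA
  obtain ⟨J, hJ, hP, hφ⟩ := h
  refine H294.pi_of_weakCover hA fun a _ δ _ => ⟨J, hJ, fun k => ?_, fun P hPc hx => ?_⟩
  · obtain ⟨φ, hs, hk⟩ := hφ k
    exact ⟨C k, inferInstance, inferInstance, inferInstance, φ, hs, hk, hC k (wpi_of_surj φ hs hA)⟩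
  · by_contra hno
    push Not at hno
    exact hx (hP P hPc _ hno)

theorem builtS_wpi {A : Type u} [NonUnitalCStarAlgebra A] [PartialOrder A] [StarOrderedRing A]
    (hA : BuiltS A) : WeaklyPurelyInfinite A → PurelyInfinite A := by
  induction hA with
  | fin A d hd => exact builtI_wpi (BuiltI.fin A d hd)
  | tame A hA => exact fun hW => pi_of_eltPI (eltPI_tame hA hW)
  | ind K C A h _ hC => exact wpi_indC h hC
  | sep K C A h _ hC => exact R2.H810.wpi_sep h hC
  | cover C A h _ hC => exact wpi_cover h hC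
  | ext J A B h _ _ hJ hB =>
    intro hA
    have h2 := (wpi_ext h).2 hA
    exact (wpi_ext h).1.2 ⟨hJ h2.1, hB h2.2⟩
  | union I J A h _ hJ =>
    obtain ⟨φ, hφ, hid, hd⟩ := h
    exact b_union φ hφ hid hd hJ
  | prod I B _ hB => exact wpi_bddProd B hB
  | func A X _ hA => exact wpi_funAlg A X hA
  | field X hX B A h _ hB =>
    refine fun hA => (fieldC hX h).1.2 fun t => hB t ?_
    obtain ⟨π, h1, -⟩ := h
    exact wpi_of_surj (π t) (h1 t) hA

/-- The three notions coincide for all members of the class `BuiltS`. -/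
theorem builtS_coincide {A : Type u} [NonUnitalCStarAlgebra A] [PartialOrder A]
    [StarOrderedRing A] (hA : BuiltS A) : Coincide A :=
  coincide_of (builtS_wpi hA)

end Vale.Agent.P133.H779
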