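import Vale.Agent.P133.H512.IndDef
import Vale.Agent.P133.H216.CompDef
import Vale.Agent.P133.R2.H695.Defs
import Vale.Agent.P133.H832.Types
import Vale.Agent.P133.H832.Seq
import Vale.Agent.P133.H832.FieldDefs
import Vale.Agent.P133.H681.NDDefs
import Vale.Agent.P133.R2.H778.PropC

/-!
P133 (helper779): a class of C*-algebras closed under the inductive step, under countable closed
covers of the primitive ideal space, and under the constructions of the earlier classes.
-/

namespace Vale.Agent.P133.H779

open Vale.Agent.P133.H832 Vale.Agent.P133.H695 Vale.Agent.P133.H512 Vale.Agent.P133.R2.H778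

universe u

/-- In every closed subset `Y` of the primitive ideal space of `A` (closed ideal `P`), every
nonempty relatively open subset (closed ideal `Q > P`) contains a nonempty relatively open subset
`U` (closed ideal `I`) which is quasi-compact or for which there is a closed set (closed ideal
`L`) containing `U` such that the algebra of the closed set of all points of the latter that are
outside `U` (it contains the boundary of `U` in `Y`) is one of the algebras `C k`. -/
def IsIndAlongC {K : Type u} (C : K → Type u) [∀ k, NonUnitalCStarAlgebra (C k)] (A : Type u)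
    [NonUnitalCStarAlgebra A] [PartialOrder A] [StarOrderedRing A] : Prop :=
  ∀ P Q : Submodule ℂ A, IsClosedIdeal P → IsClosedIdeal Q → P < Q →
    ∃ I : Submodule ℂ A, IsClosedIdeal I ∧ P < I ∧ I ≤ Q ∧ (Vale.Agent.P133.H216.CompactMod P I ∨
      ∃ L : Submodule ℂ A, IsClosedIdeal L ∧ I ⊓ L ≤ P ∧
        ∃ (k : K) (φ : A →⋆ₙₐ[ℂ] C k), Function.Surjective φ ∧
          ∀ z, φ z = 0 ↔ z ∈ (I ⊔ L).topologicalClosure)

/-- The algebras `C k` are the quotients of `A` by closed ideals `J k`, and `P` is the intersection
of the closures of the ideals `P + J k`, for every closed ideal `P`: the closed subsets of the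
primitive ideal space of `A` given by the `J k` have dense union in every closed subset, for
example they cover the primitive ideal space. -/
def IsCoverAlong (C : ℕ → Type u) [∀ k, NonUnitalCStarAlgebra (C k)] (A : Type u)
    [NonUnitalCStarAlgebra A] : Prop :=
  ∃ J : ℕ → Submodule ℂ A, (∀ k, IsClosedIdeal (J k)) ∧
    (∀ P : Submodule ℂ A, IsClosedIdeal P → ∀ x : A,
      (∀ k, x ∈ (P ⊔ J k).topologicalClosure) → x ∈ P) ∧
    ∀ k, ∃ φ : A →⋆ₙₐ[ℂ] C k, Function.Surjective φ ∧ ∀ z, φ z = 0 ↔ z ∈ J k

/-- The smallest class of C*-algebras that contains all C*-algebras of finite nuclear dimension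
and all those with a tame lattice of closed ideals (for example totally ordered, or topological
dimension zero), that contains `A` if in every closed subset of the primitive ideal space every
nonempty relatively open subset contains a nonempty relatively open subset which is quasi-compact
or whose boundary has an algebra in the class, or if any two open subsets of the primitive ideal
space can be separated along closed subsets with algebras in the class, or if every nonempty
locally closed subset of the primitive ideal space meets one of countably many closed subsets with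
algebras in the class, and that is closed under extensions, dense unions of closed two-sided
ideals, bounded products of arbitrary families, `A ↦ C₀(X, A)`, `X` nonempty locally compact
Hausdorff, and algebras of sections of upper semicontinuous fields over locally compact Hausdorff
spaces whose compact subsets have property C. -/
inductive BuiltS : (A : Type u) → [NonUnitalCStarAlgebra A] → [PartialOrder A] →
    [StarOrderedRing A] → Prop
  /-- finite nuclear dimension -/
  | fin (A : Type u) [NonUnitalCStarAlgebra A] [PartialOrder A] [StarOrderedRing A] (d : ℕ)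
      (hd : ND.NuclearDimensionLE A d) : BuiltS A
  /-- a tame lattice of closed ideals -/
  | tame (A : Type u) [NonUnitalCStarAlgebra A] [PartialOrder A] [StarOrderedRing A]
      (hA : IsTameC A) : BuiltS A
  /-- small induction -/
  | ind (K : Type u) (C : K → Type u) [∀ k, NonUnitalCStarAlgebra (C k)]
      [∀ k, PartialOrder (C k)] [∀ k, StarOrderedRing (C k)]
      (A : Type u) [NonUnitalCStarAlgebra A] [PartialOrder A] [StarOrderedRing A]
      (h : IsIndAlongC C A) (hC : ∀ k, BuiltS (C k)) : BuiltS A
  /-- separation (large induction) -/
  | sep (K : Type u) (C : K → Type u) [∀ k, NonUnitalCStarAlgebra (C k)]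
      [∀ k, PartialOrder (C k)] [∀ k, StarOrderedRing (C k)]
      (A : Type u) [NonUnitalCStarAlgebra A] [PartialOrder A] [StarOrderedRing A]
      (h : IsSepAlong C A) (hC : ∀ k, BuiltS (C k)) : BuiltS A
  /-- countable closed covers -/
  | cover (C : ℕ → Type u) [∀ k, NonUnitalCStarAlgebra (C k)]
      [∀ k, PartialOrder (C k)] [∀ k, StarOrderedRing (C k)]
      (A : Type u) [NonUnitalCStarAlgebra A] [PartialOrder A] [StarOrderedRing A]
      (h : IsCoverAlong C A) (hC : ∀ k, BuiltS (C k)) : BuiltS A
  /-- extensions: `0 → J → A → B → 0` exact -/
  | ext (J A B : Type u) [NonUnitalCStarAlgebra J] [PartialOrder J] [StarOrderedRing J]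
      [NonUnitalCStarAlgebra A] [PartialOrder A] [StarOrderedRing A]
      [NonUnitalCStarAlgebra B] [PartialOrder B] [StarOrderedRing B]
      (h : IsExtension J A B) (hJ : BuiltS J) (hB : BuiltS B) : BuiltS A
  /-- dense unions of closed two-sided ideals -/
  | union (I : Type u) (J : I → Type u) (A : Type u) [∀ i, NonUnitalCStarAlgebra (J i)]
      [∀ i, PartialOrder (J i)] [∀ i, StarOrderedRing (J i)]
      [NonUnitalCStarAlgebra A] [PartialOrder A] [StarOrderedRing A]
      (h : IsDenseUnion J A) (hJ : ∀ i, BuiltS (J i)) : BuiltS A
  /-- bounded products -/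
  | prod (I : Type u) (B : I → Type u) [∀ i, NonUnitalCStarAlgebra (B i)]
      [∀ i, PartialOrder (B i)] [∀ i, StarOrderedRing (B i)]
      [PartialOrder (BddProd B)] [StarOrderedRing (BddProd B)] (hB : ∀ i, BuiltS (B i)) :
      BuiltS (BddProd B)
  /-- continuous functions vanishing at infinity -/
  | func (A : Type u) [NonUnitalCStarAlgebra A] [PartialOrder A] [StarOrderedRing A]
      (X : Type u) [TopologicalSpace X] [LocallyCompactSpace X] [T2Space X] [Nonempty X]
      [PartialOrder (FunAlg X A)] [StarOrderedRing (FunAlg X A)] (hA : BuiltS A) :
      BuiltS (FunAlg X A)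
  /-- sections of an upper semicontinuous field with fibres `B t` -/
  | field (X : Type u) [TopologicalSpace X] [LocallyCompactSpace X] [T2Space X]
      (hX : ∀ K : Set X, IsCompact K → PropertyC K) (B : X → Type u)
      [∀ t, NonUnitalCStarAlgebra (B t)] [∀ t, PartialOrder (B t)] [∀ t, StarOrderedRing (B t)]
      (A : Type u) [NonUnitalCStarAlgebra A] [PartialOrder A] [StarOrderedRing A]
      (h : IsSectionAlgebra B A) (hB : ∀ t, BuiltS (B t)) : BuiltS A

end Vale.Agent.P133.H779
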