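import Vale.Agent.P133.R2.H28.Conv
import Vale.Agent.P133.R2.H474.Her
import Vale.Agent.P133.H681.Generic2

/-!
P133 (helper779): in a weakly purely infinite C*-algebra every hereditary subalgebra contains
two orthogonal elements `h`, `y` with `h` full and `y` nonzero in a given ideal.
-/

open scoped ComplexOrder

namespace Vale.Agent.P133.H779

open Vale.Agent.P133 Vale.Agent.P133.Statement Vale.Agent.P133.H832 Vale.Agent.P133F
  Vale.Agent.P133.H681 Vale.Agent.P133.R2 Vale.Agent.P133.R2.H28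

universe u

/-- the cut-off function: `0` on `[0, 1/4]`, `1` on `[3/4, ∞)` -/
noncomputable def ff : ℝ → ℝ := fun t => max 0 (min 1 (2 * t - 1 / 2))

/-- the function `(t - 3/4)₊` -/
noncomputable def gg : ℝ → ℝ := fun t => max (t - 3 / 4) 0

/-- `ff t / t` -/
noncomputable def kk : ℝ → ℝ := fun t => ff t / max t (1 / 4)

theorem ff_cont : Continuous ff := by unfold ff; fun_prop

theorem gg_cont : Continuous gg := by unfold gg; fun_prop

theorem ff_low {t : ℝ} (h : t ≤ 1 / 4) : ff t = 0 := by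
  unfold ff
  exact max_eq_left ((min_le_right _ _).trans (by linarith))

theorem ff_zero : ff 0 = 0 := ff_low (by norm_num)

theorem gg_zero : gg 0 = 0 := by
  unfold gg
  exact max_eq_right (by norm_num)

theorem ff_nonneg (t : ℝ) : 0 ≤ ff t := le_max_left _ _

theorem ff_le (t : ℝ) : ff t ≤ 1 := max_le zero_le_one (min_le_left _ _)

theorem ff_mul_gg (t : ℝ) : ff t * gg t = gg t := by
  rcases le_total t (3 / 4) with h | h
  · have h1 : gg t = 0 := by unfold gg; exact max_eq_right (by linarith)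
    rw [h1, mul_zero]
  · have h1 : ff t = 1 := by
      unfold ff
      rw [min_eq_left (by linarith), max_eq_right zero_le_one]
    rw [h1, one_mul]

theorem max_pos' (t : ℝ) : 0 < max t (1 / 4 : ℝ) := lt_of_lt_of_le (by norm_num) (le_max_right _ _)

theorem kk_cont : Continuous kk := by
  unfold kk
  exact ff_cont.div (by fun_prop) fun t => (max_pos' t).ne'

theorem kk_zero : kk 0 = 0 := by
  unfold kk
  rw [ff_zero, zero_div]

theorem mul_kk (t : ℝ) : t * kk t = ff t := by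
  unfold kk
  rcases le_total t (1 / 4) with h | h
  · rw [ff_low h, zero_div, mul_zero]
  · rw [max_eq_left h]
    have : t ≠ 0 := by
      have : 0 < t := lt_of_lt_of_le (by norm_num) h
      exact this.ne'
    field_simp

theorem kk_le (t : ℝ) : ‖kk t‖ ≤ 4 := by
  unfold kk
  rw [Real.norm_of_nonneg (div_nonneg (ff_nonneg t) (max_pos' t).le), div_le_iff₀ (max_pos' t)]
  have h1 := ff_le t
  have h2 : (1 / 4 : ℝ) ≤ max t (1 / 4) := le_max_right _ _
  linarith

section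

variable {A : Type u} [NonUnitalCStarAlgebra A] [PartialOrder A] [StarOrderedRing A]

theorem map_ff_zero {B : Type u} [NonUnitalCStarAlgebra B] [PartialOrder B] [StarOrderedRing B]
    (φ : A →⋆ₙₐ[ℂ] B) {Y : A} (hY : 0 ≤ Y) (hn : ‖φ Y‖ ≤ 1 / 4) : φ (cfcₙ ff Y) = 0 := by
  have hφY0 : 0 ≤ φ Y := by
    have h1 : Y = star (CFC.sqrt Y) * CFC.sqrt Y := by
      rw [(IsSelfAdjoint.of_nonneg (CFC.sqrt_nonneg Y)).star_eq, CFC.sqrt_mul_sqrt_self Y hY]
    rw [h1, map_mul, map_star]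
    exact star_mul_self_nonneg _
  have e1 : φ (cfcₙ ff Y) = cfcₙ ff (φ Y) :=
    NonUnitalStarAlgHomClass.map_cfcₙ φ _ Y (hf := ff_cont.continuousOn) (hf₀ := ff_zero)
      (hφ := map_continuous φ) (ha := IsSelfAdjoint.of_nonneg hY)
      (hφa := IsSelfAdjoint.of_nonneg hφY0)
  rw [e1, ← norm_le_zero_iff]
  refine norm_cfcₙ_le fun t ht => ?_
  have h3 : ‖t‖ ≤ ‖φ Y‖ := by
    have := norm_apply_le_norm_cfcₙ (fun x : ℝ => x) (φ Y) ht
    rwa [cfcₙ_id' ℝ (φ Y)] at this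
  rw [ff_low ((le_abs_self t).trans (h3.trans hn)), norm_zero]

/-- functions of `Y` -/
theorem fun_data {Y : A} (hY : 0 ≤ Y) : star (cfcₙ ff Y) = cfcₙ ff Y ∧
    cfcₙ ff Y * cfcₙ gg Y = cfcₙ gg Y ∧ Y * cfcₙ kk Y = cfcₙ ff Y ∧ ‖cfcₙ kk Y‖ ≤ 4 ∧
    0 ≤ cfcₙ gg Y := by
  refine ⟨IsSelfAdjoint.star_eq (IsSelfAdjoint.cfcₙ (f := ff) (a := Y)), ?_, ?_,
    norm_cfcₙ_le fun t _ => kk_le t, cfcₙ_nonneg fun x _ => le_max_right _ _⟩
  · rw [← cfcₙ_mul ff gg Y ff_cont.continuousOn ff_zero gg_cont.continuousOn gg_zero]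
    congr 1
    funext t
    exact ff_mul_gg t
  · have hYs : IsSelfAdjoint Y := IsSelfAdjoint.of_nonneg hY
    calc Y * cfcₙ kk Y = cfcₙ (fun t : ℝ => t) Y * cfcₙ kk Y := by rw [cfcₙ_id' ℝ Y]
      _ = cfcₙ (fun t : ℝ => t * kk t) Y := (cfcₙ_mul (fun t : ℝ => t) kk Y (by fun_prop) rfl
          kk_cont.continuousOn kk_zero).symm
      _ = cfcₙ ff Y := by
          congr 1
          funext t
          exact mul_kk t

/-- if `h = (1 - F) a (1 - F)` vanishes, so does `a` -/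
theorem full_aux {B : Type u} [NonUnitalCStarAlgebra B] [PartialOrder B] [StarOrderedRing B]
    (φ : A →⋆ₙₐ[ℂ] B) {q c S T r Y : A} (hqs : star q = q) (hS : S = q * r)
    (hY : Y = T * star T) (hT : ‖T‖ ≤ 2) (hTT : ‖star T * T - c‖ ≤ 1 / 100)
    (hSS : ‖star S * S - c‖ ≤ 1 / 100) (hST : ‖star S * T‖ ≤ 1 / 100)
    (h : φ (q - q * cfcₙ ff Y) = 0) : φ q = 0 := by
  have hY0 : 0 ≤ Y := by rw [hY]; exact mul_star_self_nonneg _
  obtain ⟨-, -, hFK, hKn, -⟩ := fun_data hY0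
  have h2 : φ q = φ q * φ (cfcₙ ff Y) := by
    rw [map_sub, map_mul, sub_eq_zero] at h
    exact h
  have h3 : φ (star S) = φ (star S * cfcₙ ff Y) := by
    have e1 : star S = star r * q := by rw [hS, star_mul, hqs]
    rw [e1, map_mul φ (star r * q), map_mul φ (star r) q, mul_assoc, ← h2]
  have h4 : ‖star S * cfcₙ ff Y‖ ≤ 1 / 10 := by
    have e1 : star S * cfcₙ ff Y = star S * T * star T * cfcₙ kk Y := by
      rw [← hFK]
      nth_rewrite 1 [hY]
      simp only [mul_assoc]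
    rw [e1]
    calc _ ≤ 1 / 100 * 2 * 4 := norm_mul_le_of_le (norm_mul_le_of_le hST
          (by rw [norm_star]; exact hT)) hKn
      _ ≤ 1 / 10 := by norm_num
  have h5 : ‖φ S‖ ≤ 1 / 10 := by
    rw [← norm_star, ← map_star, h3]
    exact (NonUnitalStarAlgHom.norm_apply_le φ _).trans h4
  have h6 : ‖φ c‖ ≤ 1 / 50 := by
    have e1 : φ c = star (φ S) * φ S - φ (star S * S - c) := by
      rw [map_sub, map_mul, map_star]; abel
    rw [e1]
    calc _ ≤ ‖star (φ S) * φ S‖ + ‖φ (star S * S - c)‖ := norm_sub_le _ _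
      _ ≤ 1 / 10 * (1 / 10) + 1 / 100 := by
          refine add_le_add (norm_mul_le_of_le (by rw [norm_star]; exact h5) h5)
            ((NonUnitalStarAlgHom.norm_apply_le φ _).trans hSS)
      _ = 1 / 50 := by norm_num
  have h7 : ‖φ Y‖ ≤ 1 / 4 := by
    rw [hY, map_mul, map_star, CStarRing.norm_self_mul_star, ← CStarRing.norm_star_mul_self]
    have e1 : star (φ T) * φ T = φ c + φ (star T * T - c) := by
      rw [map_sub, map_mul, map_star]; abel
    rw [e1]
    calc _ ≤ ‖φ c‖ + ‖φ (star T * T - c)‖ := norm_add_le _ _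
      _ ≤ 1 / 50 + 1 / 100 := add_le_add h6 ((NonUnitalStarAlgHom.norm_apply_le φ _).trans hTT)
      _ ≤ 1 / 4 := by norm_num
  rw [h2, map_ff_zero φ hY0 h7, mul_zero]

/-- the norm of `T` -/
theorem norm_data {c T : A} (hc : ‖c‖ = 1) (hTT : ‖star T * T - c‖ ≤ 1 / 100) :
    99 / 100 ≤ ‖T‖ * ‖T‖ ∧ ‖T‖ ≤ 2 := by
  have h0 : ‖T‖ * ‖T‖ ≤ 101 / 100 := by
    rw [← CStarRing.norm_star_mul_self]
    calc ‖star T * T‖ = ‖(star T * T - c) + c‖ := by rw [sub_add_cancel]
      _ ≤ ‖star T * T - c‖ + ‖c‖ := norm_add_le _ _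
      _ ≤ 101 / 100 := by rw [hc]; linarith
  have h1 : 99 / 100 ≤ ‖T‖ * ‖T‖ := by
    rw [← CStarRing.norm_star_mul_self]
    have h1 : ‖c‖ ≤ ‖star T * T‖ + ‖star T * T - c‖ := by
      have h2 : c = star T * T - (star T * T - c) := by abel
      calc ‖c‖ = ‖star T * T - (star T * T - c)‖ := by rw [← h2]
        _ ≤ _ := norm_sub_le _ _
    rw [hc] at h1
    linarith
  exact ⟨h1, by nlinarith [norm_nonneg T]⟩

/-- `(1 - F) a (1 - F)` for `F` in the hereditary subalgebra -/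
theorem her_compress {a q F : A} (ha : 0 ≤ a) (hqs : star q = q) (hqq : q * q = a)
    (hFs : star F = F) (hF : F ∈ H474.her a) :
    star (q - q * F) * (q - q * F) ∈ H474.her a := by
  have haa : a ∈ H474.her a := H474.self_mem_her (IsSelfAdjoint.of_nonneg ha)
  have h1 : star (q - q * F) * (q - q * F) = a - a * F - F * a + F * a * F := by
    rw [star_sub, star_mul, hqs, hFs, ← hqq]
    noncomm_ring
  rw [h1]
  exact (H474.her a).add_mem ((H474.her a).sub_mem ((H474.her a).sub_mem haa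
    (H474.her_mul haa hF)) (H474.her_mul hF haa))
    (H474.her_mul (H474.her_mul hF haa) hF)

/-- Let `c ≠ 0` be positive with all multiples below `a`. Then `Her a` contains orthogonal
positive elements `h` and `y` such that `a` is in the closed ideal generated by `h`, and `y` is
not zero and in every closed ideal that contains `c`. -/
theorem full_and_small {a c : A} (ha : 0 ≤ a) (hne : c ≠ 0) (hac : InfB a c) :
    ∃ h y : A, 0 ≤ h ∧ 0 ≤ y ∧ h * y = 0 ∧ h ∈ Her a ∧ y ∈ Her a ∧ InId h a ∧ y ≠ 0 ∧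
      ∀ I : Submodule ℂ A, IsClosedIdeal I → c ∈ I → y ∈ I := by
  have hc0 : 0 ≤ c := hac.1
  -- normalisation
  have hcn : 0 < ‖c‖ := norm_pos_iff.2 hne
  obtain ⟨c', hc'⟩ : ∃ c' : A, c' = (‖c‖⁻¹ : ℝ) • c := ⟨_, rfl⟩
  have hc'0 : 0 ≤ c' := by rw [hc']; exact smul_nonneg (by positivity) hc0
  have hc'n : ‖c'‖ = 1 := by
    rw [hc', norm_smul, norm_inv, norm_norm, inv_mul_cancel₀ hcn.ne']
  have hac' : InfB a c' := hac.sub (SubId.of_le hc'0 (l := ‖c‖⁻¹) (by positivity) hc'.le)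
  obtain ⟨r, hr⟩ := hac'.2 2 (1 / 100) (by norm_num)
  obtain ⟨q, hq⟩ : ∃ q : A, q = CFC.sqrt a := ⟨_, rfl⟩
  have hqs : star q = q := by
    rw [hq]; exact (IsSelfAdjoint.of_nonneg (CFC.sqrt_nonneg a)).star_eq
  have hqq : q * q = a := by rw [hq]; exact CFC.sqrt_mul_sqrt_self a ha
  have key : ∀ i j, star (q * r i) * (q * r j) = star (r i) * a * r j := by
    intro i j
    rw [← hqq]
    simp only [star_mul, hqs, mul_assoc]
  obtain ⟨T, hT⟩ : ∃ T : A, T = q * r 0 := ⟨_, rfl⟩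
  obtain ⟨S, hS⟩ : ∃ S : A, S = q * r 1 := ⟨_, rfl⟩
  have h00 : ‖star T * T - c'‖ ≤ 1 / 100 := by
    rw [hT, key]; have := (hr 0 0).le; rwa [if_pos rfl] at this
  have h11 : ‖star S * S - c'‖ ≤ 1 / 100 := by
    rw [hS, key]; have := (hr 1 1).le; rwa [if_pos rfl] at this
  have h10 : ‖star S * T‖ ≤ 1 / 100 := by
    rw [hS, hT, key]; have := (hr 1 0).le; rwa [if_neg (by decide), sub_zero] at this
  obtain ⟨hn1, hn2⟩ := norm_data hc'n h00
  -- the element `Y`
  obtain ⟨Y, hY⟩ : ∃ Y : A, Y = T * star T := ⟨_, rfl⟩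
  have hY0 : 0 ≤ Y := by rw [hY]; exact mul_star_self_nonneg _
  have hYn : ‖Y‖ = ‖T‖ * ‖T‖ := by rw [hY, CStarRing.norm_self_mul_star]
  have hYa : Y ∈ H474.her a := by
    have h1 : Y = CFC.sqrt a * (r 0 * star (r 0)) * CFC.sqrt a := by
      rw [hY, hT, ← hq]
      simp only [star_mul, hqs, mul_assoc]
    rw [h1]
    exact sqrt_conj_her ha _
  obtain ⟨hFs, hFG, -, -, hG0⟩ := fun_data hY0
  have hYs : IsSelfAdjoint Y := IsSelfAdjoint.of_nonneg hY0
  have hFa : cfcₙ ff Y ∈ H474.her a := H474.her_cfc hYs hYa ff_cont ff_zero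
  have hGa : cfcₙ gg Y ∈ H474.her a := H474.her_cfc hYs hYa gg_cont gg_zero
  refine ⟨star (q - q * cfcₙ ff Y) * (q - q * cfcₙ ff Y), cfcₙ gg Y, star_mul_self_nonneg _,
    hG0, ?_, her_compress ha hqs hqq hFs hFa, hGa, ?_, ?_, ?_⟩
  · have h1 : (q - q * cfcₙ ff Y) * cfcₙ gg Y = 0 := by rw [sub_mul, mul_assoc, hFG, sub_self]
    rw [mul_assoc, h1, mul_zero]
  · -- fullness
    obtain ⟨P, hP, hP'⟩ := isClosedIdeal_inId (star (q - q * cfcₙ ff Y) * (q - q * cfcₙ ff Y))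
    rw [← hP']
    obtain ⟨B, i1, i2, i3, φ, hφ, hk⟩ := hP.quot
    have hφh := (hk _).2 ((hP' _).2 (InId.refl (star (q - q * cfcₙ ff Y) * (q - q * cfcₙ ff Y))))
    rw [map_mul, map_star] at hφh
    have h1 : φ (q - q * cfcₙ ff Y) = 0 := (CStarRing.star_mul_self_eq_zero_iff _).1 hφh
    refine (hk a).1 ?_
    rw [← hqq, map_mul, full_aux φ hqs hS hY hn2 h00 h11 h10 h1, mul_zero]
  · -- `G` is not zero
    intro h1
    have h2 : ‖H28.cut Y (3 / 4) - Y‖ ≤ 3 / 4 := norm_cut_sub_le hY0 (by norm_num)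
    have h3 : H28.cut Y (3 / 4) = 0 := h1
    rw [h3, zero_sub, norm_neg, hYn] at h2
    linarith
  · intro I hI hcI
    obtain ⟨B, i1, i2, i3, φ, hφ, hk⟩ := hI.quot
    refine cut_mem_of_norm hY0 (by norm_num : (0 : ℝ) < 3 / 4) φ hk ?_
    have h1 : φ c' = 0 := by
      refine (hk c').2 ?_
      have := I.smul_mem ((‖c‖⁻¹ : ℝ) : ℂ) hcI
      rw [hc']
      rwa [Complex.coe_smul] at this
    rw [hY, map_mul, map_star, CStarRing.norm_self_mul_star, ← CStarRing.norm_star_mul_self]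
    have e1 : star (φ T) * φ T = φ (star T * T - c') := by
      rw [map_sub, map_mul, map_star, h1, sub_zero]
    rw [e1]
    exact ((NonUnitalStarAlgHom.norm_apply_le φ _).trans h00).trans (by norm_num)

end

end Vale.Agent.P133.H779
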