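import Vale.Agent.P133.H779.LocalDef
import Vale.Agent.P133.H779.Class
import Vale.Agent.P133.H512.Clause2
import Vale.Agent.P133.R2.H486.Restrict

/-!
P133 (helper779): the three notions of pure infiniteness coincide for the class `BuiltL`.
-/

open scoped ComplexOrder

namespace Vale.Agent.P133.H779

open Vale.Agent.P133 Vale.Agent.P133.Statement Vale.Agent.P133F Vale.Agent.P133.H681
  Vale.Agent.P133.H832 Vale.Agent.P133.R2.H778 Vale.Agent.P133.R2.H307 Vale.Agent.P133.H512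
  Vale.Agent.P133.H330 Vale.Agent.P133.R2 Vale.Agent.P133.R2.H474

universe u

/-- a homomorphism into an algebra embedded by `ι` -/
theorem exists_restrict {A E F : Type u} [NonUnitalCStarAlgebra A] [NonUnitalCStarAlgebra E]
    [NonUnitalCStarAlgebra F] (ι : E →⋆ₙₐ[ℂ] A) (hι : Function.Injective ι) (ν : F →⋆ₙₐ[ℂ] A)
    (h : ∀ f, ∃ e, ι e = ν f) : ∃ μ : F →⋆ₙₐ[ℂ] E, ∀ f, ι (μ f) = ν f := by
  choose m hm using h
  exact ⟨{ toFun := m
           map_smul' := fun c d => hι (by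
             show ι (m (c • d)) = ι ((MonoidHom.id ℂ) c • m d)
             rw [MonoidHom.id_apply, map_smul, hm, hm, map_smul])
           map_zero' := hι (by rw [hm, map_zero, map_zero])
           map_add' := fun x y => hι (by rw [hm, map_add, map_add, hm, hm])
           map_mul' := fun x y => hι (by rw [hm, map_mul, map_mul, hm, hm])
           map_star' := fun x => hι (by rw [hm, map_star, map_star, hm]) }, hm⟩

section

variable {A : Type u} [NonUnitalCStarAlgebra A] [PartialOrder A] [StarOrderedRing A]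

/-- subquotients of weakly purely infinite algebras -/
theorem wpi_subquot {n : ℕ} {J K : Submodule ℂ A} {C : Type u} [NonUnitalCStarAlgebra C]
    [PartialOrder C] [StarOrderedRing C] (hn : WPI A n) (h : IsSubquot J K C) : WPI C n := by
  obtain ⟨-, hK, D, i1, φ, ι, hφ, hk, hι, hr⟩ := h
  let _ : PartialOrder D := CStarAlgebra.spectralOrder D
  let _ : StarOrderedRing D := CStarAlgebra.spectralOrderedRing D
  refine wpi_of_her ι hι (fun x y w => ?_) (wpiE_of_surj hn φ hφ)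
  obtain ⟨a, ha⟩ := hφ (ι x * w)
  obtain ⟨b, hb⟩ := hφ (ι y)
  obtain ⟨z, hz⟩ := (hr (a * b)).1 (hK.2 _ _ ((hr b).2 ⟨y, hb.symm⟩)).1
  exact ⟨z, by rw [hz, map_mul, ha, hb]⟩

omit [PartialOrder A] [StarOrderedRing A] in
theorem piBetween_of_subquot {J K : Submodule ℂ A} {C : Type u} [NonUnitalCStarAlgebra C]
    [PartialOrder C] [StarOrderedRing C] (h : IsSubquot J K C) (hC : PurelyInfinite C) :
    PiBetween J K := by
  obtain ⟨-, -, D, i1, φ, ι, hφ, hk, hι, hr⟩ := h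
  exact ⟨D, C, i1, inferInstance, inferInstance, inferInstance, φ, ι, hφ, hk, hι, hr, hC⟩

/-- the modular law -/
theorem le_sup_inf_closure {P I K : Submodule ℂ A} (hP : IsClosedIdeal P) (hI : IsClosedIdeal I)
    (hK : IsClosedIdeal K) (h : I ≤ (P ⊔ K).topologicalClosure) :
    I ≤ (P ⊔ (I ⊓ K)).topologicalClosure := by
  intro x hx
  have h1 : x ∈ closure ((P ⊔ K : Submodule ℂ A) : Set A) := h hx
  have h2 : x ∈ closure ((P ⊔ (I ⊓ K) : Submodule ℂ A) : Set A) := by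
    rw [Metric.mem_closure_iff]
    intro ε hε
    obtain ⟨g, -, hg1, hgI, hg⟩ := unit_ideal' (ι := Unit) hI (fun _ => x) (fun _ => hx)
      (ε := ε / 3) (by positivity)
    obtain ⟨y, hy, hxy⟩ := Metric.mem_closure_iff.1 h1 (ε / 3) (by positivity)
    obtain ⟨p, hp, k, hk, rfl⟩ := Submodule.mem_sup.1 hy
    refine ⟨g * p + g * k, Submodule.add_mem_sup (hP.2 _ _ hp).1
      ⟨(hI.2 _ _ hgI).2, (hK.2 _ _ hk).1⟩, ?_⟩
    rw [dist_eq_norm] at hxy ⊢
    have e1 : x - (g * p + g * k) = (x - g * x) + g * (x - (p + k)) := by noncomm_ring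
    have h3 : ‖g * (x - (p + k))‖ ≤ ‖x - (p + k)‖ := by
      refine (norm_mul_le _ _).trans ?_
      calc _ ≤ 1 * ‖x - (p + k)‖ := mul_le_mul_of_nonneg_right hg1 (norm_nonneg _)
        _ = _ := one_mul _
    rw [e1]
    refine (norm_add_le _ _).trans_lt ?_
    have h4 := (hg ()).1
    linarith
  exact h2

/-- **Transfer of pure infiniteness between subquotients.** -/
theorem piBetween_transfer {J K P I : Submodule ℂ A} (hJ : IsClosedIdeal J)
    (hK : IsClosedIdeal K) (hP : IsClosedIdeal P) (hI : IsClosedIdeal I) (hPI : P ≤ I)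
    (h : PiBetween J K) (h1 : I ⊓ J ≤ P) (h2 : I ≤ (P ⊔ K).topologicalClosure) :
    PiBetween P I := by
  obtain ⟨E, C, i1, i2, i3, i4, ι, ρ, hι, hr, hρ, hρk, hC⟩ := piSub_of_piBetween hK h
  refine piBetween_of hP hI hPI fun B _ _ _ φ hφ hk D _ _ _ κ hκ hκr => ?_
  obtain ⟨F, j1, j2, j3, ν, hν, hνr⟩ := exists_idAlg (H330.isClosedIdeal_inf hI hK)
  have hνI : ∀ f, ν f ∈ I := fun f => ((hνr _).1 ⟨f, rfl⟩).1
  have hνK : ∀ f, ν f ∈ K := fun f => ((hνr _).1 ⟨f, rfl⟩).2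
  obtain ⟨μ, hμ⟩ := exists_restrict ι hι ν fun f => (hr _).1 (hνK f)
  obtain ⟨β, hβ⟩ := exists_restrict κ hκ (φ.comp ν) fun f => (hκr _).2 ⟨ν f, hνI f, rfl⟩
  have hβ' : ∀ f, κ (β f) = φ (ν f) := hβ
  -- the quotient of `F` by the part in `J`
  obtain ⟨G, k1, k2, k3, χ, hχ, hχk⟩ := (isClosedIdeal_comap ν hJ).quot
  have hχk' : ∀ f, χ f = 0 ↔ ν f ∈ J := hχk
  obtain ⟨α, hα⟩ := Vale.Agent.P133.H486.exists_factor χ hχ (ρ.comp μ) fun f hf => by
    show ρ (μ f) = 0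
    rw [hρk, hμ]
    exact (hχk' f).1 hf
  have hα' : ∀ f, α (χ f) = ρ (μ f) := hα
  have hαi : Function.Injective α := by
    rw [injective_iff_map_eq_zero]
    intro g hg
    obtain ⟨f, rfl⟩ := hχ g
    rw [hα', hρk, hμ] at hg
    exact (hχk' f).2 hg
  have hG : WPI G 1 := by
    refine wpi_of_her α hαi (fun x y w => ?_) (wpi1_of_pi hC)
    obtain ⟨f, rfl⟩ := hχ x
    obtain ⟨f', rfl⟩ := hχ y
    obtain ⟨e, rfl⟩ := hρ w
    have h3 : ν f * ι e * ν f' ∈ I ⊓ K := ⟨(hI.2 _ _ (hνI f')).1, (hK.2 _ _ (hνK f')).1⟩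
    obtain ⟨f'', hf''⟩ := (hνr _).2 h3
    refine ⟨χ f'', ?_⟩
    have h4 : μ f'' = μ f * e * μ f' := hι (by
      rw [hμ, hf'', map_mul, map_mul, hμ, hμ])
    rw [hα', hα', hα', h4, map_mul, map_mul]
  -- the quotient of `F` by the part in `P`
  obtain ⟨G₂, l1, l2, l3, χ₂, hχ₂, hχ₂k⟩ := (isClosedIdeal_comap ν hP).quot
  have hχ₂k' : ∀ f, χ₂ f = 0 ↔ ν f ∈ P := hχ₂k
  obtain ⟨γ, hγ⟩ := Vale.Agent.P133.H486.exists_factor χ hχ χ₂ fun f hf =>
    (hχ₂k' f).2 (h1 ⟨hνI f, (hχk' f).1 hf⟩)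
  have hγs : Function.Surjective γ := fun g => by
    obtain ⟨f, rfl⟩ := hχ₂ g
    exact ⟨χ f, hγ f⟩
  have hG₂ : WPI G₂ 1 := wpiE_of_surj hG γ hγs
  obtain ⟨δ, hδ⟩ := Vale.Agent.P133.H486.exists_factor χ₂ hχ₂ β fun f hf => hκ (by
    rw [hβ', map_zero]
    exact (hk _).2 ((hχ₂k' f).1 hf))
  have hδi : Function.Injective δ := by
    rw [injective_iff_map_eq_zero]
    intro g hg
    obtain ⟨f, rfl⟩ := hχ₂ g
    rw [hδ] at hg
    have h3 : φ (ν f) = 0 := by rw [← hβ', hg, map_zero]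
    exact (hχ₂k' f).2 ((hk _).1 h3)
  have hδs : Function.Surjective δ := by
    intro d
    have hcl : IsClosed (Set.range δ) :=
      (NonUnitalStarAlgHom.isometry δ hδi).isClosedEmbedding.isClosed_range
    have h3 : d ∈ closure (Set.range δ) := by
      rw [Metric.mem_closure_iff]
      intro ε hε
      obtain ⟨a, ha, had⟩ := (hκr (κ d)).1 ⟨d, rfl⟩
      have h4 : a ∈ closure ((P ⊔ (I ⊓ K) : Submodule ℂ A) : Set A) :=
        le_sup_inf_closure hP hI hK h2 ha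
      obtain ⟨y, hy, hay⟩ := Metric.mem_closure_iff.1 h4 ε hε
      obtain ⟨p, hp, k, hk', rfl⟩ := Submodule.mem_sup.1 hy
      obtain ⟨f, rfl⟩ := (hνr _).2 hk'
      refine ⟨δ (χ₂ f), ⟨_, rfl⟩, ?_⟩
      rw [dist_eq_norm] at hay ⊢
      have h5 : κ (d - δ (χ₂ f)) = φ (a - (p + ν f)) := by
        rw [map_sub, hδ, hβ', map_sub, map_add, (hk p).2 hp, zero_add, had]
      rw [← NonUnitalStarAlgHom.norm_map κ hκ, h5]
      exact (NonUnitalStarAlgHom.norm_apply_le φ _).trans_lt hay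
    rwa [hcl.closure_eq] at h3
  exact eltPI_of_wpi1 (wpiE_of_surj hG₂ δ hδs)

omit [PartialOrder A] [StarOrderedRing A] in
theorem le_of_subquot {J K : Submodule ℂ A} {C : Type u} [NonUnitalCStarAlgebra C]
    (h : IsSubquot J K C) : J ≤ K := by
  obtain ⟨-, -, D, i1, φ, ι, hφ, hk, hι, hr⟩ := h
  exact fun x hx => (hr x).2 ⟨0, by rw [map_zero, (hk x).2 hx]⟩

variable {T : Type u} {J K : T → Submodule ℂ A}

/-- a closed subset inside a purely infinite locally closed subset -/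
theorem piBetween_closed {t : T} (hJ : IsClosedIdeal (J t)) (hK : IsClosedIdeal (K t))
    (hpi : PiBetween (J t) (K t)) {I L : Submodule ℂ A} (hI : IsClosedIdeal I)
    (hL : IsClosedIdeal L) (h1 : J t ≤ (I ⊔ L).topologicalClosure)
    (h2 : (I ⊔ L ⊔ K t).topologicalClosure = ⊤) :
    PiBetween (I ⊔ L).topologicalClosure ⊤ := by
  refine piBetween_transfer hJ hK (isClosedIdeal_sup hI hL) isClosedIdeal_top le_top hpi
    (inf_le_right.trans h1) ?_
  rw [← h2]
  exact Submodule.topologicalClosure_mono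
    (sup_le_sup_right (Submodule.le_topologicalClosure _) _)

/-- the local condition -/
theorem pi_of_local (hW : WeaklyPurelyInfinite A) (hJ : ∀ t, IsClosedIdeal (J t))
    (hK : ∀ t, IsClosedIdeal (K t)) (hpi : ∀ t, PiBetween (J t) (K t)) (h : LocalCond J K) :
    PurelyInfinite A := by
  refine (pi_iff_ind3 hW).2 fun P Q hP hQ hPQ => ?_
  obtain ⟨I, hI, hPI, hIQ, h1 | ⟨t, ⟨h1, h2⟩ | ⟨L, hL, hIL, h1, h2⟩⟩⟩ := h P Q hP hQ hPQ
  · exact ⟨I, hI, hPI, hIQ, Or.inr (Or.inl h1)⟩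
  · exact ⟨I, hI, hPI, hIQ, Or.inl (piBetween_transfer (hJ t) (hK t) hP hI hPI.le
      (hpi t) h1 h2)⟩
  · exact ⟨I, hI, hPI, hIQ, Or.inr (Or.inr ⟨L, hL, hIL,
      piBetween_closed (hJ t) (hK t) (hpi t) hI hL h1 h2⟩)⟩

/-- the countable condition -/
theorem pi_of_count (hW : WeaklyPurelyInfinite A) (hJ : ∀ t, IsClosedIdeal (J t))
    (hK : ∀ t, IsClosedIdeal (K t)) (hJK : ∀ t, J t ≤ K t)
    (hpi : ∀ t, PiBetween (J t) (K t)) (h : CountCond J K) : PurelyInfinite A := by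
  obtain ⟨hc, hs, hP⟩ := h
  rcases isEmpty_or_nonempty T with hT | hT
  · refine (pi_iff_ind3 hW).2 fun P Q hPc hQ hPQ => ?_
    obtain ⟨x, -, hx⟩ := SetLike.exists_of_lt hPQ
    obtain ⟨t, -⟩ := hP P hPc x hx
    exact hT.elim t
  · obtain ⟨f, hf⟩ := exists_surjective_nat T
    refine (pi_iff_pieces hW (J := fun k => J (f k)) (K := fun k => K (f k)) (fun k => hJ _)
      (fun k => hK _) (fun k => hJK _) (hs.imp_right fun h k => h _) fun P hPc x hx => ?_).2
      fun k => hpi _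
    obtain ⟨t, y, hy, hxy⟩ := hP P hPc x hx
    obtain ⟨k, rfl⟩ := hf t
    exact ⟨k, y, hy, hxy⟩

/-- the separation condition -/
theorem pi_of_sep (hW : WeaklyPurelyInfinite A) (hJ : ∀ t, IsClosedIdeal (J t))
    (hK : ∀ t, IsClosedIdeal (K t)) (hpi : ∀ t, PiBetween (J t) (K t)) (h : SepCond J K) :
    PurelyInfinite A := by
  obtain ⟨n, hn⟩ := wpi_elementwise hW
  refine pi_of_eltPI (eltPI_sep hn fun J₁ J₂ h1 h2 w hw ε hε => ?_)
  obtain ⟨I₁, I₂, t, hI₁, hI₂, h12, ⟨w', hw1, hw2, hw3⟩, h3, h4⟩ := h J₁ J₂ h1 h2 w hw ε hε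
  obtain ⟨D, i1, i2, i3, φ, hφ, hk, hD⟩ :=
    quot_of_piBetween (piBetween_closed (hJ t) (hK t) (hpi t) hI₁ hI₂ h3 h4)
  refine ⟨I₁, I₂, hI₁, hI₂, fun z hz1 hz2 => ?_, ⟨w', hw1, hw2, hw3⟩, D, i1, φ, hφ, hk,
    diag_of_eltPI D hD⟩
  have h5 : z ∈ I₁ ⊓ I₂ := ⟨hz1, hz2⟩
  rwa [h12, Submodule.mem_bot] at h5

theorem wpi_builtFrom {C : T → Type u} [∀ t, NonUnitalCStarAlgebra (C t)]
    [∀ t, PartialOrder (C t)] [∀ t, StarOrderedRing (C t)] (h : IsBuiltFrom C A)
    (hC : ∀ t, WeaklyPurelyInfinite (C t) → PurelyInfinite (C t)) :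
    WeaklyPurelyInfinite A → PurelyInfinite A := by
  intro hW
  obtain ⟨J, K, hJK, h⟩ := h
  obtain ⟨n, hn⟩ := wpi_elementwise hW
  have hpi : ∀ t, PiBetween (J t) (K t) := fun t =>
    piBetween_of_subquot (hJK t) (hC t (wpi_of_elt (wpi_subquot hn (hJK t))))
  have hJ : ∀ t, IsClosedIdeal (J t) := fun t => (hJK t).1
  have hK : ∀ t, IsClosedIdeal (K t) := fun t => (hJK t).2.1
  rcases h with h | h | h
  · exact pi_of_local hW hJ hK hpi h
  · exact pi_of_count hW hJ hK (fun t => le_of_subquot (hJK t)) hpi h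
  · exact pi_of_sep hW hJ hK hpi h

end

theorem builtL_wpi {A : Type u} [NonUnitalCStarAlgebra A] [PartialOrder A] [StarOrderedRing A]
    (hA : BuiltL A) : WeaklyPurelyInfinite A → PurelyInfinite A := by
  induction hA with
  | fin A d hd => exact builtI_wpi (BuiltI.fin A d hd)
  | tame A hA => exact fun hW => pi_of_eltPI (eltPI_tame hA hW)
  | sub T C A h _ hC => exact wpi_builtFrom h hC
  | prod I B _ hB => exact wpi_bddProd B hB
  | func A X _ hA => exact wpi_funAlg A X hA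
  | field X hX B A h _ hB =>
    refine fun hA => (fieldC hX h).1.2 fun t => hB t ?_
    obtain ⟨π, h1, -⟩ := h
    exact wpi_of_surj (π t) (h1 t) hA

/-- The three notions coincide for all members of the class `BuiltL`. -/
theorem builtL_coincide {A : Type u} [NonUnitalCStarAlgebra A] [PartialOrder A]
    [StarOrderedRing A] (hA : BuiltL A) : Coincide A :=
  coincide_of (builtL_wpi hA)

end Vale.Agent.P133.H779
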