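import Vale.Agent.P133.H216.CompDef
import Vale.Agent.P133.H832.Types
import Vale.Agent.P133.H832.FieldDefs
import Vale.Agent.P133.H681.NDDefs
import Vale.Agent.P133.R2.H778.PropC

/-!
P133 (helper779): a class of C*-algebras closed under local, countable and inductive conditions on
subquotients, and under the constructions of the earlier classes.
-/

namespace Vale.Agent.P133.H779

open Vale.Agent.P133.H832 Vale.Agent.P133.R2.H778

universe u

/-- `J` and `K` are closed ideals of `A`, `J ≤ K`, and the C*-algebra `C` is isomorphic to the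
ideal `K / J` of `A / J`. Here `D` is the quotient `A / J`. -/
def IsSubquot {A : Type u} [NonUnitalCStarAlgebra A] (J K : Submodule ℂ A) (C : Type u)
    [NonUnitalCStarAlgebra C] : Prop :=
  IsClosedIdeal J ∧ IsClosedIdeal K ∧
    ∃ (D : Type u) (_ : NonUnitalCStarAlgebra D) (φ : A →⋆ₙₐ[ℂ] D) (ι : C →⋆ₙₐ[ℂ] D),
      Function.Surjective φ ∧ (∀ x, φ x = 0 ↔ x ∈ J) ∧ Function.Injective ι ∧
        ∀ x, x ∈ K ↔ ∃ y, ι y = φ x

section

variable {T : Type u} {A : Type u} [NonUnitalCStarAlgebra A] (J K : T → Submodule ℂ A)

/-- Let `S t` be the locally closed subset of the primitive ideal space of `A` given by the closed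
ideals `J t` and `K t`. In every closed subset of the primitive ideal space (closed ideal `P`),
every nonempty relatively open subset (closed ideal `Q > P`) contains a nonempty relatively open
subset `U` (closed ideal `I`) such that `U` is quasi-compact, or `U` is contained in some `S t`, or
there is a closed subset containing `U` (closed ideal `L`) such that all points of it outside `U`
are in some `S t` (for the closure of `U` this is the boundary of `U`). -/
def LocalCond [PartialOrder A] [StarOrderedRing A] : Prop :=
  ∀ P Q : Submodule ℂ A, IsClosedIdeal P → IsClosedIdeal Q → P < Q →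
    ∃ I : Submodule ℂ A, IsClosedIdeal I ∧ P < I ∧ I ≤ Q ∧
      (Vale.Agent.P133.H216.CompactMod P I ∨
        ∃ t, (I ⊓ J t ≤ P ∧ I ≤ (P ⊔ K t).topologicalClosure) ∨
          ∃ L : Submodule ℂ A, IsClosedIdeal L ∧ I ⊓ L ≤ P ∧
            J t ≤ (I ⊔ L).topologicalClosure ∧ (I ⊔ L ⊔ K t).topologicalClosure = ⊤)

/-- The locally closed subsets given by the closed ideals `J t` and `K t` are countably many and
meet every nonempty locally closed subset of the primitive ideal space of `A`. Either `A` is
separable or all these subsets are closed. -/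
def CountCond : Prop :=
  Countable T ∧ (TopologicalSpace.SeparableSpace A ∨ ∀ t, K t = ⊤) ∧
    ∀ P : Submodule ℂ A, IsClosedIdeal P → ∀ x : A, x ∉ P →
      ∃ (t : T) (y : A), y ∈ K t ∧ x * y ∉ (P ⊔ J t).topologicalClosure

/-- Any two open subsets of the primitive ideal space of `A` (closed ideals `J₁`, `J₂`) can be
separated along a closed subset contained in one of the locally closed subsets given by the closed
ideals `J t` and `K t`: there are closed ideals `I₁`, `I₂` with `I₁ ∩ I₂ = 0` such that a given
element of `J₁ + J₂` is approximated by elements of `J₁ + I₂` that are also in `J₂ + I₁`, and the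
closed subset given by the closure of `I₁ + I₂` is contained in one of the locally closed
subsets. -/
def SepCond : Prop :=
  ∀ J₁ J₂ : Submodule ℂ A, IsClosedIdeal J₁ → IsClosedIdeal J₂ → ∀ w ∈ J₁ ⊔ J₂,
    ∀ ε : ℝ, 0 < ε → ∃ (I₁ I₂ : Submodule ℂ A) (t : T), IsClosedIdeal I₁ ∧ IsClosedIdeal I₂ ∧
      I₁ ⊓ I₂ = ⊥ ∧ (∃ w', ‖w' - w‖ < ε ∧ w' ∈ (J₁ ⊔ I₂) ⊓ (J₂ ⊔ I₁)) ∧
      J t ≤ (I₁ ⊔ I₂).topologicalClosure ∧ (I₁ ⊔ I₂ ⊔ K t).topologicalClosure = ⊤

end

/-- The algebras `C t` are isomorphic to subquotients `K t / J t` of `A` that satisfy one of the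
three conditions. -/
def IsBuiltFrom {T : Type u} (C : T → Type u) [∀ t, NonUnitalCStarAlgebra (C t)] (A : Type u)
    [NonUnitalCStarAlgebra A] [PartialOrder A] [StarOrderedRing A] : Prop :=
  ∃ J K : T → Submodule ℂ A, (∀ t, IsSubquot (J t) (K t) (C t)) ∧
    (LocalCond J K ∨ CountCond J K ∨ SepCond J K)

/-- The smallest class of C*-algebras that contains all C*-algebras of finite nuclear dimension
and all those with a tame lattice of closed ideals, and is closed under the rules below. -/
inductive BuiltL : (A : Type u) → [NonUnitalCStarAlgebra A] → [PartialOrder A] →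
    [StarOrderedRing A] → Prop
  /-- finite nuclear dimension -/
  | fin (A : Type u) [NonUnitalCStarAlgebra A] [PartialOrder A] [StarOrderedRing A] (d : ℕ)
      (hd : ND.NuclearDimensionLE A d) : BuiltL A
  /-- a tame lattice of closed ideals -/
  | tame (A : Type u) [NonUnitalCStarAlgebra A] [PartialOrder A] [StarOrderedRing A]
      (hA : IsTameC A) : BuiltL A
  /-- conditions on subquotients -/
  | sub (T : Type u) (C : T → Type u) [∀ t, NonUnitalCStarAlgebra (C t)]
      [∀ t, PartialOrder (C t)] [∀ t, StarOrderedRing (C t)]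
      (A : Type u) [NonUnitalCStarAlgebra A] [PartialOrder A] [StarOrderedRing A]
      (h : IsBuiltFrom C A) (hC : ∀ t, BuiltL (C t)) : BuiltL A
  /-- bounded products -/
  | prod (I : Type u) (B : I → Type u) [∀ i, NonUnitalCStarAlgebra (B i)]
      [∀ i, PartialOrder (B i)] [∀ i, StarOrderedRing (B i)]
      [PartialOrder (BddProd B)] [StarOrderedRing (BddProd B)] (hB : ∀ i, BuiltL (B i)) :
      BuiltL (BddProd B)
  /-- continuous functions vanishing at infinity -/
  | func (A : Type u) [NonUnitalCStarAlgebra A] [PartialOrder A] [StarOrderedRing A]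
      (X : Type u) [TopologicalSpace X] [LocallyCompactSpace X] [T2Space X] [Nonempty X]
      [PartialOrder (FunAlg X A)] [StarOrderedRing (FunAlg X A)] (hA : BuiltL A) :
      BuiltL (FunAlg X A)
  /-- sections of an upper semicontinuous field with fibres `B t` -/
  | field (X : Type u) [TopologicalSpace X] [LocallyCompactSpace X] [T2Space X]
      (hX : ∀ K : Set X, IsCompact K → PropertyC K) (B : X → Type u)
      [∀ t, NonUnitalCStarAlgebra (B t)] [∀ t, PartialOrder (B t)] [∀ t, StarOrderedRing (B t)]
      (A : Type u) [NonUnitalCStarAlgebra A] [PartialOrder A] [StarOrderedRing A]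
      (h : IsSectionAlgebra B A) (hB : ∀ t, BuiltL (B t)) : BuiltL A

end Vale.Agent.P133.H779
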